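import Claimed.Agent.R285.Est.Main

/-!
# ROW 285, package PK-EST, file 10: choice of the constants     (helper165)

`nonlinear_core`, `large_linear_core`: [B] P4.8 (rg:nonlinear-map) and the contraction of large linear inputs, for every pair with the geometric properties `GeoHyp`.
Order: radii, `n₀`, `N` (number of fine blocks in a coarse block, i.e. `L`), `cst`, `Cd`;  then `A ≥ A₀`;  then `C`, `ε₀`.
-/

set_option autoImplicit false

namespace Claimed.Agent.R285.Est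

open scoped BigOperators ENNReal NNReal
open Claimed.Agent.R285.RG Claimed.Agent.R285.Alg
open Classical

/-- `β = 2^{-N}` -/
noncomputable def betaN (N : ℕ) : ℝ≥0 := ((2 : ℝ≥0) ^ N)⁻¹

theorem betaN_pos (N : ℕ) : 0 < betaN N := by unfold betaN; positivity

theorem betaN_le_one (N : ℕ) : betaN N ≤ 1 := by
  unfold betaN
  exact inv_le_one_of_one_le₀ (one_le_pow₀ (by norm_num))

theorem betaN_mul (N : ℕ) : ((betaN N : ℝ≥0) : ℝ≥0∞) * 2 ^ N ≤ 1 := by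
  have : betaN N * 2 ^ N = 1 := by
    unfold betaN
    exact inv_mul_cancel₀ (by positivity)
  have h2 : ((betaN N * 2 ^ N : ℝ≥0) : ℝ≥0∞) = 1 := by rw [this]; rfl
  rw [← h2]
  push_cast
  exact le_rfl

/-- the constants of step 1 -/
theorem exists_C1 (cst : ℝ≥0) (n0 N : ℕ) (A : ℝ≥0) (hA1 : 1 ≤ A) (hA : 4 * cst ^ 2 / betaN N ^ 2 ≤ A) :
    C1 4 A cst (betaN N) ((max 1 (4 * cst / betaN N)) ^ n0) n0 where
  h1 := by
    calc (1 : ℝ≥0) = 1 * 1 := (one_mul _).symm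
      _ ≤ 4 * A := mul_le_mul' (by norm_num) hA1
  hbig := by
    have hb : 0 < betaN N ^ 2 := pow_pos (betaN_pos N) 2
    rw [div_le_iff₀ hb] at hA
    rw [mul_comm (betaN N ^ 2)]
    exact hA
  hc2 := by
    intro n hn
    have hb := betaN_pos N
    calc (4 * cst) ^ n = (4 * cst / betaN N) ^ n * betaN N ^ n := by
          rw [← mul_pow, div_mul_cancel₀ _ hb.ne']
      _ ≤ (max 1 (4 * cst / betaN N)) ^ n * betaN N ^ n :=
          mul_le_mul' (pow_le_pow_left₀ zero_le (le_max_right _ _) n) le_rfl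
      _ ≤ (max 1 (4 * cst / betaN N)) ^ n0 * betaN N ^ n :=
          mul_le_mul' (pow_le_pow_right₀ (le_max_left _ _) hn) le_rfl
  hc2' := one_le_pow₀ (le_max_left _ _)

/-- **[B] P4.8, (rg:nonlinear-map), abstract form, from `GeoHyp`** -/
theorem nonlinear_core (r R sep n0 N : ℕ) (hs : sep < r) (hrR : r + 2 < R) (cst Cd : ℝ≥0) : ∃ A0 : ℝ≥0, ∀ A ≥ A0,
    ∃ (C ε0 : ℝ≥0), 0 < ε0 ∧ ∀ (D0 ℓ : ℕ) (G : Geom) (P : Pair G D0 ℓ), GeoHyp P r R n0 N →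
      ∀ (𝔸 : Type) [CommRing 𝔸] [Algebra ℂ 𝔸] (E : 𝔸 → 𝔸) (S : SizeSys P R E) (K : Finset P.g.I → 𝔸) (d : Desig P.g' 𝔸),
      S.sep ≤ sep → S.cst ≤ cst → d.Small r P.g' →
      ∀ ε : ℝ≥0, ε ≤ ε0 → S.nf A K ≤ ε → S.nd d ≤ Cd * ε →
        S.nc A (Kprime P r R E K d - Klin P R E K d) ≤ C * ε ^ 2 := by
  refine ⟨max 1 (4 * cst ^ 2 / betaN N ^ 2), fun A hA => ?_⟩
  have hA1 : 1 ≤ A := le_trans (le_max_left _ _) hA
  have hA2 : 4 * cst ^ 2 / betaN N ^ 2 ≤ A := le_trans (le_max_right _ _) hA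
  set c2 : ℝ≥0 := (max 1 (4 * cst / betaN N)) ^ n0 with hc2
  have hC1 := exists_C1 cst n0 N A hA1 hA2
  set m2 : ℝ≥0 := 2 * c2 + 4 * (4 * A) ^ 4 * Cd + 8 * A * Cd with hm2
  set m3 : ℝ≥0 := 3 * m2 + 8 * A * Cd with hm3
  have hc2pos : 1 ≤ c2 := hC1.hc2'
  have hm3pos : 0 < m3 := by
    have : 0 < c2 := lt_of_lt_of_le one_pos hc2pos
    positivity
  refine ⟨m3 ^ 2 + m2 ^ 2 + c2 ^ 2 + 2 * A * Cd ^ 2, m3⁻¹, by positivity, ?_⟩
  intro D0 ℓ G P hG 𝔸 _ _ E S K d hsep hcst hd ε hε hK hnd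
  have hm3ε : m3 * ε ≤ 1 := by
    calc m3 * ε ≤ m3 * m3⁻¹ := mul_le_mul' le_rfl hε
      _ = 1 := mul_inv_cancel₀ hm3pos.ne'
  have hν : Cd * ε ≤ 2⁻¹ := by
    have h1 : 2 * (Cd * ε) ≤ m3 * ε := by
      rw [← mul_assoc]
      refine mul_le_mul' ?_ le_rfl
      calc 2 * Cd = 2 * 1 * Cd := by ring
        _ ≤ 8 * A * Cd := mul_le_mul' (mul_le_mul' (by norm_num) hA1) le_rfl
        _ ≤ m3 := by rw [hm3]; exact le_add_self
    have h2 : 2 * (Cd * ε) ≤ 1 := h1.trans hm3ε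
    calc Cd * ε = 2⁻¹ * (2 * (Cd * ε)) := by rw [← mul_assoc, inv_mul_cancel₀ (by norm_num), one_mul]
      _ ≤ 2⁻¹ * 1 := mul_le_mul' le_rfl h2
      _ = 2⁻¹ := mul_one _
  have hN : Num A cst (betaN N) c2 n0 N (ε : ℝ≥0∞) ((Cd * ε : ℝ≥0) : ℝ≥0∞) ((m2 * ε : ℝ≥0) : ℝ≥0∞) ((m3 * ε : ℝ≥0) : ℝ≥0∞) := by
    refine ⟨hC1, hA1, betaN_le_one N, betaN_mul N, ?_, ?_, ?_, ?_⟩
    · have : ((Cd * ε : ℝ≥0) : ℝ≥0∞) ≤ ((2⁻¹ : ℝ≥0) : ℝ≥0∞) := by exact_mod_cast hν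
      refine this.trans (le_of_eq ?_)
      push_cast
      rfl
    · apply le_of_eq
      rw [hm2]
      push_cast
      ring
    · apply le_of_eq
      rw [hm3]
      push_cast
      ring
    · exact_mod_cast hm3ε
  have hnd' : S.nd d ≤ ((Cd * ε : ℝ≥0) : ℝ≥0∞) := by
    refine hnd.trans (le_of_eq ?_)
    push_cast
    rfl
  unfold SizeSys.nc
  refine iSup_le fun Y => ?_
  refine (point_le S (hsep.trans hs.le) hrR K d hd hN hG hcst hK hnd' Y).trans (le_of_eq ?_)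
  push_cast
  ring

/-- **large linear inputs, from `GeoHyp`-type hypotheses** -/
theorem large_linear_core (R n0 N : ℕ) (cst η : ℝ≥0) (hη : 0 < η) : ∃ A0 : ℝ≥0, ∀ A ≥ A0,
    ∀ (D0 ℓ : ℕ) (G : Geom) (P : Pair G D0 ℓ),
      (∀ X : Finset P.g.I, P.g.Conn R X → n0 < X.card → 2 * (P.N.cl X).card ≤ X.card) → (∀ y, (fib P y).card ≤ N) →
      ∀ (𝔸 : Type) [CommRing 𝔸] [Algebra ℂ 𝔸] (E : 𝔸 → 𝔸) (S : SizeSys P R E) (K : Finset P.g.I → 𝔸), S.cst ≤ cst →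
        S.nc A (fun Y => ∑ X ∈ Finset.univ.filter
          (fun X : Finset P.g.I => P.g.Conn R X ∧ n0 < X.card ∧ P.N.cl X = Y), E (K X)) ≤ η * S.nf A K := by
  -- `β = min 1 η · 2^{-N}`
  set β : ℝ≥0 := min 1 η * betaN N with hβ
  have hβpos : 0 < β := by
    have := betaN_pos N
    have h1 : 0 < min 1 η := lt_min one_pos hη
    positivity
  have hβ1 : β ≤ 1 := by
    calc β ≤ 1 * 1 := mul_le_mul' (min_le_left _ _) (betaN_le_one N)
      _ = 1 := one_mul _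
  have hβN : (β : ℝ≥0∞) * 2 ^ N ≤ (min 1 η : ℝ≥0) := by
    rw [hβ]
    push_cast
    rw [mul_assoc]
    calc ((min 1 η : ℝ≥0∞)) * ((betaN N : ℝ≥0∞) * 2 ^ N) ≤ (min 1 η : ℝ≥0∞) * 1 := mul_le_mul' le_rfl (betaN_mul N)
      _ = _ := mul_one _
  refine ⟨max 1 (cst ^ 2 / β ^ 2), fun A hA => ?_⟩
  have hA1 : 1 ≤ A := le_trans (le_max_left _ _) hA
  have hA2 : cst ^ 2 / β ^ 2 ≤ A := le_trans (le_max_right _ _) hA
  have hbig : 1 * cst ^ 2 ≤ β ^ 2 * A := by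
    rw [div_le_iff₀ (pow_pos hβpos 2)] at hA2
    rw [one_mul, mul_comm]
    exact hA2
  intro D0 ℓ G P hhalf hfib 𝔸 _ _ E S K hcst
  unfold SizeSys.nc
  refine iSup_le fun Y => ?_
  set κ := S.nf A K with hκ
  have hk : ∀ X : Finset P.g.I, (A : ℝ≥0∞) ^ X.card * S.szf X (K X) ≤ κ :=
    fun X => le_iSup (fun X => (A : ℝ≥0∞) ^ X.card * S.szf X (K X)) X
  have hterm : ∀ X : Finset P.g.I, P.g.Conn R X → n0 < X.card → P.N.cl X = Y →
      (A : ℝ≥0∞) ^ Y.card * S.szc Y (E (K X)) ≤ κ * (β : ℝ≥0∞) ^ X.card := by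
    intro X hX hn hcl
    have h1 := S.integ X K Y (by rw [hcl])
    rw [comps_self hX, Finset.prod_singleton, Finset.prod_singleton] at h1
    have h2 : (1 * A) ^ (P.N.cl X).card * cst ^ X.card ≤ (β * A) ^ X.card :=
      theta_const 1 A cst β (by rwa [one_mul]) hbig _ _ (hhalf X hX hn)
    rw [one_mul, hcl] at h2
    have h2' : (A : ℝ≥0∞) ^ Y.card * (cst : ℝ≥0∞) ^ X.card ≤ ((β : ℝ≥0∞) * A) ^ X.card := by exact_mod_cast h2
    calc (A : ℝ≥0∞) ^ Y.card * S.szc Y (E (K X)) ≤ (A : ℝ≥0∞) ^ Y.card * (S.cst ^ X.card * S.szf X (K X)) := mul_le_mul' le_rfl h1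
      _ ≤ (A : ℝ≥0∞) ^ Y.card * ((cst : ℝ≥0∞) ^ X.card * S.szf X (K X)) :=
          mul_le_mul' le_rfl (mul_le_mul' (pow_le_pow_left₀ zero_le hcst _) le_rfl)
      _ = ((A : ℝ≥0∞) ^ Y.card * (cst : ℝ≥0∞) ^ X.card) * S.szf X (K X) := by ring
      _ ≤ ((β : ℝ≥0∞) * A) ^ X.card * S.szf X (K X) := mul_le_mul' h2' le_rfl
      _ = ((A : ℝ≥0∞) ^ X.card * S.szf X (K X)) * (β : ℝ≥0∞) ^ X.card := by rw [mul_pow]; ring
      _ ≤ κ * (β : ℝ≥0∞) ^ X.card := mul_le_mul' (hk X) le_rfl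
  by_cases hY : Y = ∅
  · subst hY
    have : Finset.univ.filter (fun X : Finset P.g.I => P.g.Conn R X ∧ n0 < X.card ∧ P.N.cl X = ∅) = ∅ := by
      ext X
      simp only [Finset.mem_filter, Finset.mem_univ, true_and, Finset.notMem_empty, iff_false, not_and]
      intro hX _ hcl
      obtain ⟨a, ha⟩ := hX.1
      have : P.N.up a ∈ P.N.cl X := Finset.mem_image_of_mem _ ha
      rw [hcl] at this
      exact absurd this (Finset.notMem_empty _)
    simp only [this, Finset.sum_empty, S.szc_zero, mul_zero]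
    exact zero_le
  · have hcard : 1 ≤ Y.card := Finset.card_pos.2 (Finset.nonempty_iff_ne_empty.2 hY)
    calc (A : ℝ≥0∞) ^ Y.card * S.szc Y (∑ X ∈ Finset.univ.filter
            (fun X : Finset P.g.I => P.g.Conn R X ∧ n0 < X.card ∧ P.N.cl X = Y), E (K X))
        ≤ (A : ℝ≥0∞) ^ Y.card * ∑ X ∈ Finset.univ.filter
            (fun X : Finset P.g.I => P.g.Conn R X ∧ n0 < X.card ∧ P.N.cl X = Y), S.szc Y (E (K X)) :=
          mul_le_mul' le_rfl (szc_sum S _ _ _)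
      _ = ∑ X ∈ Finset.univ.filter (fun X : Finset P.g.I => P.g.Conn R X ∧ n0 < X.card ∧ P.N.cl X = Y),
            (A : ℝ≥0∞) ^ Y.card * S.szc Y (E (K X)) := Finset.mul_sum _ _ _
      _ ≤ ∑ X ∈ Finset.univ.filter (fun X : Finset P.g.I => P.g.Conn R X ∧ n0 < X.card ∧ P.N.cl X = Y),
            κ * (β : ℝ≥0∞) ^ X.card := by
          refine Finset.sum_le_sum fun X hX => ?_
          simp only [Finset.mem_filter, Finset.mem_univ, true_and] at hX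
          exact hterm X hX.1 hX.2.1 hX.2.2
      _ ≤ ∑ X ∈ Finset.univ.filter (fun X : Finset P.g.I => P.N.cl X = Y), κ * (β : ℝ≥0∞) ^ X.card := by
          apply Finset.sum_le_sum_of_subset
          intro X hX
          simp only [Finset.mem_filter, Finset.mem_univ, true_and] at hX ⊢
          exact hX.2.2
      _ = κ * ∑ X ∈ Finset.univ.filter (fun X : Finset P.g.I => P.N.cl X = Y), (β : ℝ≥0∞) ^ X.card := (Finset.mul_sum _ _ _).symm
      _ ≤ κ * ((β : ℝ≥0∞) * 2 ^ N) ^ Y.card := mul_le_mul' le_rfl (sum_cl_pow _ (by exact_mod_cast hβ1) N hfib Y)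
      _ ≤ κ * ((min 1 η : ℝ≥0) : ℝ≥0∞) ^ Y.card := mul_le_mul' le_rfl (pow_le_pow_left₀ zero_le hβN _)
      _ ≤ κ * ((min 1 η : ℝ≥0) : ℝ≥0∞) ^ 1 := by
          refine mul_le_mul' le_rfl (pow_le_pow_right_of_le_one' ?_ hcard)
          exact_mod_cast min_le_left 1 η
      _ ≤ κ * η := by
          rw [pow_one]
          refine mul_le_mul' le_rfl ?_
          exact_mod_cast min_le_right 1 η
      _ = η * κ := mul_comm _ _

end Claimed.Agent.R285.Est
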