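import Claimed.Agent.R285.Alg.Step1

/-!
# ROW 285, package PK-EST ([B] P4.8, the norm estimate, abstract form), file 1: sizes of sums and products, the fibre sum     (helper165)

PLAN OF THE PACKAGE (my own derivation; simpler than the paper because `A₀` and `C` may depend on `L`):
* weights: `K` in the norm `A` (fine)  ⟶  `K̃` in the norm `4A`  ⟶  `H` in the norm `2A`  ⟶  `K'` in the norm `A`.  The factors `2^{-|Y|}` pay for the sums over subsets.
* step 1 uses NO lattice animal count: `θ(X) = (4A)^{|\bar X|} cst^{|X|} ‖K(X)‖ ≤ c₂ ε β^{|X|}` (`|\bar X| ≤ |X|/2` for `|X| > n₀`, `β² A ≥ 4 cst²`) and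
  `∑_{V : \bar V = Y} β^{|V|} ≤ (β 2^N)^{|Y|}`, `N` = number of fine blocks in a coarse block.
* steps 2, 3: a term with `j ≥ 2` objects is `≤ μ² × (summable weight)`, `∑_{T ⊆ Z} 2^{-|Z∖T|} 4^{-|T|} = (3/4)^{|Z|}`, `∑_{Z ∪ T = Y} 2^{-|Z|} 4^{-|T|} = (7/8)^{|Y|}`.
-/

set_option autoImplicit false

namespace Claimed.Agent.R285.Est

open scoped BigOperators ENNReal NNReal
open Claimed.Agent.R285.RG Claimed.Agent.R285.Alg
open Classical

variable {G : Geom} {D0 ℓ : ℕ} {P : Pair G D0 ℓ} {R : ℕ} {𝔸 : Type} [CommRing 𝔸] [Algebra ℂ 𝔸] {E : 𝔸 → 𝔸}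

section sizes

variable (S : SizeSys P R E)

theorem szc_sum (Y : Finset P.g'.I) {ι : Type} (s : Finset ι) (x : ι → 𝔸) :
    S.szc Y (∑ i ∈ s, x i) ≤ ∑ i ∈ s, S.szc Y (x i) := by
  induction s using Finset.induction_on with
  | empty => simp [S.szc_zero]
  | insert a s ha ih =>
    rw [Finset.sum_insert ha, Finset.sum_insert ha]
    exact (S.szc_add _ _ _).trans (add_le_add le_rfl ih)

theorem szc_neg (Y : Finset P.g'.I) (x : 𝔸) : S.szc Y (-x) ≤ S.szc Y x := by
  have h := S.szc_smul Y (-1) x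
  simpa using h

theorem szc_sub (Y : Finset P.g'.I) (x y : 𝔸) : S.szc Y (x - y) ≤ S.szc Y x + S.szc Y y := by
  rw [sub_eq_add_neg]
  exact (S.szc_add _ _ _).trans (add_le_add le_rfl (szc_neg S Y y))

theorem sep_biUnion {g : Grid G} {d : ℕ} {ι : Type} (s : Finset ι) (σ : ι → Finset g.I) (X : Finset g.I)
    (h : ∀ i ∈ s, g.Sep d X (σ i)) : g.Sep d X (s.biUnion σ) := by
  intro a ha b hb
  obtain ⟨i, hi, hbi⟩ := Finset.mem_biUnion.1 hb
  exact h i hi a ha b hbi

theorem szc_prod {ι : Type} (s : Finset ι) (σ : ι → Finset P.g'.I) (x : ι → 𝔸)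
    (hsep : ∀ i ∈ s, ∀ j ∈ s, i ≠ j → P.g'.Sep S.sep (σ i) (σ j)) :
    S.szc (s.biUnion σ) (∏ i ∈ s, x i) ≤ ∏ i ∈ s, S.szc (σ i) (x i) := by
  induction s using Finset.induction_on with
  | empty => simpa using S.szc_one ∅
  | insert a s ha ih =>
    rw [Finset.prod_insert ha, Finset.prod_insert ha, Finset.biUnion_insert]
    have h1 : P.g'.Sep S.sep (σ a) (s.biUnion σ) := by
      apply sep_biUnion
      intro i hi
      exact hsep a (Finset.mem_insert_self _ _) i (Finset.mem_insert_of_mem hi) (fun h => ha (h ▸ hi))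
    refine (S.szc_mul _ _ _ _ h1).trans (mul_le_mul' le_rfl (ih ?_))
    intro i hi j hj hij
    exact hsep i (Finset.mem_insert_of_mem hi) j (Finset.mem_insert_of_mem hj) hij

/-- weighted form -/
theorem wszc_prod (B : ℝ≥0∞) (hB : 1 ≤ B) {ι : Type} (s : Finset ι) (σ : ι → Finset P.g'.I) (x : ι → 𝔸)
    (hsep : ∀ i ∈ s, ∀ j ∈ s, i ≠ j → P.g'.Sep S.sep (σ i) (σ j)) :
    B ^ (s.biUnion σ).card * S.szc (s.biUnion σ) (∏ i ∈ s, x i) ≤ ∏ i ∈ s, (B ^ (σ i).card * S.szc (σ i) (x i)) := by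
  rw [Finset.prod_mul_distrib, Finset.prod_pow_eq_pow_sum]
  exact mul_le_mul' (pow_le_pow_right₀ hB Finset.card_biUnion_le) (szc_prod S s σ x hsep)

end sizes

/-! ### the fibre sum -/

/-- the fine blocks in a coarse block -/
noncomputable def fib (P : Pair G D0 ℓ) (y : P.g'.I) : Finset P.g.I := Finset.univ.filter fun a => P.N.up a = y

theorem sum_cl_singleton (β : ℝ≥0∞) (hβ : β ≤ 1) (N : ℕ) (y : P.g'.I) (hN : (fib P y).card ≤ N) :
    ∑ V ∈ Finset.univ.filter (fun V : Finset P.g.I => P.N.cl V = {y}), β ^ V.card ≤ β * 2 ^ N := by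
  have hsub : Finset.univ.filter (fun V : Finset P.g.I => P.N.cl V = {y}) ⊆ (fib P y).powerset := by
    intro V hV
    simp only [Finset.mem_filter, Finset.mem_univ, true_and] at hV
    rw [Finset.mem_powerset]
    intro a ha
    simp only [fib, Finset.mem_filter, Finset.mem_univ, true_and]
    have : P.N.up a ∈ P.N.cl V := Finset.mem_image_of_mem _ ha
    rw [hV] at this
    exact Finset.mem_singleton.1 this
  calc ∑ V ∈ Finset.univ.filter (fun V : Finset P.g.I => P.N.cl V = {y}), β ^ V.card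
      ≤ ∑ V ∈ Finset.univ.filter (fun V : Finset P.g.I => P.N.cl V = {y}), β := by
        refine Finset.sum_le_sum fun V hV => ?_
        simp only [Finset.mem_filter, Finset.mem_univ, true_and] at hV
        have hne : V.card ≠ 0 := by
          intro h0
          rw [Finset.card_eq_zero] at h0
          subst h0
          simp [Nest.cl] at hV
        calc β ^ V.card ≤ β ^ 1 := pow_le_pow_right_of_le_one' hβ (Nat.one_le_iff_ne_zero.2 hne)
          _ = β := pow_one β
    _ ≤ ∑ _V ∈ (fib P y).powerset, β := Finset.sum_le_sum_of_subset hsub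
    _ = 2 ^ (fib P y).card * β := by simp [Finset.card_powerset]
    _ ≤ β * 2 ^ N := by
        rw [mul_comm]
        exact mul_le_mul' le_rfl (pow_le_pow_right₀ (by norm_num) hN)

theorem card_union_of_cl {V1 V2 : Finset P.g.I} {A B : Finset P.g'.I} (hAB : Disjoint A B) (h1 : P.N.cl V1 = A)
    (h2 : P.N.cl V2 = B) : (V1 ∪ V2).card = V1.card + V2.card := by
  apply Finset.card_union_of_disjoint
  rw [Finset.disjoint_left]
  intro a ha1 ha2
  have e1 : P.N.up a ∈ A := by rw [← h1]; exact Finset.mem_image_of_mem _ ha1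
  have e2 : P.N.up a ∈ B := by rw [← h2]; exact Finset.mem_image_of_mem _ ha2
  exact Finset.disjoint_left.1 hAB e1 e2

/-- `∑_{V : \bar V = Y} β^{|V|} ≤ (β 2^N)^{|Y|}` -/
theorem sum_cl_pow (β : ℝ≥0∞) (hβ : β ≤ 1) (N : ℕ) (hN : ∀ y, (fib P y).card ≤ N) (Y : Finset P.g'.I) :
    ∑ V ∈ Finset.univ.filter (fun V : Finset P.g.I => P.N.cl V = Y), β ^ V.card ≤ (β * 2 ^ N) ^ Y.card := by
  induction Y using Finset.induction_on with
  | empty =>
    have h0 : Finset.univ.filter (fun V : Finset P.g.I => P.N.cl V = ∅) = {∅} := by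
      ext V
      simp [Nest.cl]
    rw [h0]
    simp
  | insert y Y hy ih =>
    have hd : Disjoint ({y} : Finset P.g'.I) Y := Finset.disjoint_singleton_left.2 hy
    rw [Finset.insert_eq, sum_cl_union _ _ hd, Finset.card_union_of_disjoint hd, Finset.card_singleton, pow_add, pow_one]
    calc ∑ V1 ∈ Finset.univ.filter (fun V : Finset P.g.I => P.N.cl V = {y}),
          ∑ V2 ∈ Finset.univ.filter (fun V : Finset P.g.I => P.N.cl V = Y), β ^ (V1 ∪ V2).card
        = (∑ V1 ∈ Finset.univ.filter (fun V : Finset P.g.I => P.N.cl V = {y}), β ^ V1.card)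
            * ∑ V2 ∈ Finset.univ.filter (fun V : Finset P.g.I => P.N.cl V = Y), β ^ V2.card := by
          rw [Finset.sum_mul_sum]
          refine Finset.sum_congr rfl fun V1 h1 => Finset.sum_congr rfl fun V2 h2 => ?_
          simp only [Finset.mem_filter, Finset.mem_univ, true_and] at h1 h2
          rw [card_union_of_cl hd h1 h2, pow_add]
      _ ≤ (β * 2 ^ N) * (β * 2 ^ N) ^ Y.card := mul_le_mul' (sum_cl_singleton β hβ N y (hN y)) ih

end Claimed.Agent.R285.Est
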