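import Claimed.Agent.R285.Est.Step1
import Claimed.Agent.R285.Alg.Step3

/-!
# ROW 285, package PK-EST, file 3: the estimate of step 3 (`H` in the norm `2A` ⟶ `K'` in the norm `A`)     (helper165)
-/

set_option autoImplicit false

namespace Claimed.Agent.R285.Est

open scoped BigOperators ENNReal NNReal
open Claimed.Agent.R285.RG Claimed.Agent.R285.Alg
open Classical

variable {G : Geom} {D0 ℓ : ℕ} {P : Pair G D0 ℓ} {R : ℕ} {𝔸 : Type} [CommRing 𝔸] [Algebra ℂ 𝔸] {E : 𝔸 → 𝔸}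

/-- `∑_{Z ∪ T = Y} u^{|Z|} v^{|T|}` -/
noncomputable def M3 {J : Type} [DecidableEq J] (u v : ℝ≥0∞) (Y : Finset J) : ℝ≥0∞ :=
  ∑ Z ∈ Y.powerset, ∑ T ∈ Y.powerset, if Z ∪ T = Y then u ^ Z.card * v ^ T.card else 0

theorem M3_union {J : Type} [DecidableEq J] (u v : ℝ≥0∞) (A B : Finset J) (hd : Disjoint A B) :
    M3 u v (A ∪ B) = M3 u v A * M3 u v B := by
  unfold M3
  rw [sum_powerset_union₂ A B hd, Finset.sum_mul]
  refine Finset.sum_congr rfl fun Z1 hZ1 => ?_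
  rw [Finset.sum_mul]
  refine Finset.sum_congr rfl fun T1 hT1 => ?_
  rw [Finset.mul_sum]
  refine Finset.sum_congr rfl fun Z2 hZ2 => ?_
  rw [Finset.mul_sum]
  refine Finset.sum_congr rfl fun T2 hT2 => ?_
  rw [Finset.mem_powerset] at hZ1 hT1 hZ2 hT2
  have hiff := union_eq_union_iff hd hZ1 hT1 hZ2 hT2
  by_cases h1 : Z1 ∪ T1 = A
  · by_cases h2 : Z2 ∪ T2 = B
    · rw [if_pos (hiff.2 ⟨h1, h2⟩), if_pos h1, if_pos h2,
        Finset.card_union_of_disjoint (Finset.disjoint_of_subset_left hZ1 (Finset.disjoint_of_subset_right hZ2 hd)),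
        Finset.card_union_of_disjoint (Finset.disjoint_of_subset_left hT1 (Finset.disjoint_of_subset_right hT2 hd))]
      ring
    · rw [if_neg (fun hc => h2 (hiff.1 hc).2), if_neg h2, mul_zero]
  · rw [if_neg (fun hc => h1 (hiff.1 hc).1), if_neg h1, zero_mul]

theorem M3_singleton {J : Type} [DecidableEq J] (u v : ℝ≥0∞) (b : J) : M3 u v {b} = u + v + u * v := by
  unfold M3
  have hp : ({b} : Finset J).powerset = {∅, {b}} := by
    ext T
    simp [Finset.subset_singleton_iff]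
  have hne : (∅ : Finset J) ≠ {b} := (Finset.singleton_ne_empty b).symm
  rw [hp, Finset.sum_pair hne, Finset.sum_pair hne, Finset.sum_pair hne]
  simp [hne]
  ring

theorem M3_eq {J : Type} [DecidableEq J] (u v : ℝ≥0∞) (Y : Finset J) : M3 u v Y = (u + v + u * v) ^ Y.card := by
  induction Y using Finset.induction_on with
  | empty => simp [M3]
  | insert b Y hb ih =>
    have hd : Disjoint ({b} : Finset J) Y := Finset.disjoint_singleton_left.2 hb
    rw [Finset.insert_eq, M3_union u v _ _ hd, M3_singleton, ih, Finset.card_union_of_disjoint hd, Finset.card_singleton]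
    ring

/-- one term of `Kext` -/
noncomputable def t3 (g : Grid G) (R : ℕ) (H : Finset g.I → 𝔸) (dec : g.I → ℂ) (Z T : Finset g.I) : 𝔸 :=
  (∏ b ∈ T, dec b) • ∏ X ∈ g.comps R Z, H X

theorem half_pow_mul (A : ℝ≥0∞) (n : ℕ) (s : ℝ≥0∞) : A ^ n * s = (2⁻¹ : ℝ≥0∞) ^ n * ((2 * A) ^ n * s) := by
  rw [mul_pow, ← mul_assoc, ← mul_assoc, ← mul_pow, ENNReal.inv_mul_cancel (by norm_num) (by norm_num), one_pow, one_mul]

/-- the size of one term -/
theorem t3_le (S : SizeSys P R E) (hsep : S.sep ≤ R) (H : Finset P.g'.I → 𝔸) (dec : P.g'.I → ℂ) (A h x : ℝ≥0∞) (hA : 1 ≤ A)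
    (hH : ∀ X, (2 * A) ^ X.card * S.szc X (H X) ≤ h) (hdec : ∀ b, A * ‖dec b‖₊ ≤ x) (Y Z T : Finset P.g'.I) (hY : Z ∪ T = Y) :
    A ^ Y.card * S.szc Y (t3 P.g' R H dec Z T) ≤ h ^ (P.g'.comps R Z).card * x ^ T.card * ((2⁻¹ : ℝ≥0∞) ^ Z.card) := by
  have hZY : Z ⊆ Y := by rw [← hY]; exact Finset.subset_union_left
  have hcard : Y.card ≤ Z.card + T.card := by rw [← hY]; exact Finset.card_union_le _ _
  have h1 : S.szc Z (∏ X ∈ P.g'.comps R Z, H X) ≤ ∏ X ∈ P.g'.comps R Z, S.szc X (H X) := by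
    have := szc_prod S (P.g'.comps R Z) id H (fun X hX X' hX' hne => sep_le (comps_sep hX hX' hne) hsep)
    rw [comps_biUnion] at this
    exact this
  have h2 : A ^ Z.card * ∏ X ∈ P.g'.comps R Z, S.szc X (H X) ≤ h ^ (P.g'.comps R Z).card * (2⁻¹ : ℝ≥0∞) ^ Z.card := by
    conv_lhs => rw [card_eq_sum_comps (R := R) Z]
    conv_rhs => rw [card_eq_sum_comps (R := R) Z]
    rw [← Finset.prod_pow_eq_pow_sum, ← Finset.prod_pow_eq_pow_sum, ← Finset.prod_mul_distrib, ← Finset.prod_const,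
      ← Finset.prod_mul_distrib]
    refine Finset.prod_le_prod' fun X _ => ?_
    rw [half_pow_mul, mul_comm]
    exact mul_le_mul' (hH X) le_rfl
  have h3 : A ^ T.card * (‖∏ b ∈ T, dec b‖₊ : ℝ≥0∞) ≤ x ^ T.card := by
    rw [nnnorm_prod, ENNReal.ofNNReal_finsetProd, ← Finset.prod_const, ← Finset.prod_const, ← Finset.prod_mul_distrib]
    exact Finset.prod_le_prod' fun b _ => hdec b
  calc A ^ Y.card * S.szc Y (t3 P.g' R H dec Z T)
      ≤ A ^ (Z.card + T.card) * ((‖∏ b ∈ T, dec b‖₊ : ℝ≥0∞) * S.szc Z (∏ X ∈ P.g'.comps R Z, H X)) := by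
        refine mul_le_mul' (pow_le_pow_right₀ hA hcard) ?_
        unfold t3
        exact (S.szc_smul _ _ _).trans (mul_le_mul' le_rfl (S.szc_mono _ _ _ hZY))
    _ ≤ A ^ (Z.card + T.card) * ((‖∏ b ∈ T, dec b‖₊ : ℝ≥0∞) * ∏ X ∈ P.g'.comps R Z, S.szc X (H X)) :=
        mul_le_mul' le_rfl (mul_le_mul' le_rfl h1)
    _ = (A ^ Z.card * ∏ X ∈ P.g'.comps R Z, S.szc X (H X)) * (A ^ T.card * (‖∏ b ∈ T, dec b‖₊ : ℝ≥0∞)) := by
        rw [pow_add]; ring
    _ ≤ (h ^ (P.g'.comps R Z).card * (2⁻¹ : ℝ≥0∞) ^ Z.card) * x ^ T.card := mul_le_mul' h2 h3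
    _ = h ^ (P.g'.comps R Z).card * x ^ T.card * ((2⁻¹ : ℝ≥0∞) ^ Z.card) := by ring

/-- the pairs `(Z, T)` with `Z ∪ T = Y` -/
noncomputable def pairs {J : Type} [DecidableEq J] (Y : Finset J) : Finset (Finset J × Finset J) :=
  (Y.powerset ×ˢ Y.powerset).filter fun q => q.1 ∪ q.2 = Y

theorem sum_pairs {J : Type} [DecidableEq J] {M : Type} [AddCommMonoid M] (Y : Finset J) (f : Finset J → Finset J → M) :
    ∑ q ∈ pairs Y, f q.1 q.2 = ∑ Z ∈ Y.powerset, ∑ T ∈ Y.powerset, if Z ∪ T = Y then f Z T else 0 := by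
  unfold pairs
  rw [Finset.sum_filter, Finset.sum_product]

theorem mem_pairs {J : Type} [DecidableEq J] {Y : Finset J} {q : Finset J × Finset J} : q ∈ pairs Y ↔ q.1 ∪ q.2 = Y := by
  unfold pairs
  simp only [Finset.mem_filter, Finset.mem_product, Finset.mem_powerset, and_iff_right_iff_imp]
  intro h
  rw [← h]
  exact ⟨Finset.subset_union_left, Finset.subset_union_right⟩

theorem comps_card_eq_zero {g : Grid G} {Z : Finset g.I} (h : (g.comps R Z).card = 0) : Z = ∅ := by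
  by_contra hne
  obtain ⟨a, ha⟩ := Finset.nonempty_iff_ne_empty.2 hne
  obtain ⟨X, hX, _⟩ := comps_cover (R := R) ha
  rw [Finset.card_eq_zero] at h
  rw [h] at hX
  exact absurd hX (Finset.notMem_empty X)

theorem lin_iff {g : Grid G} {Y : Finset g.I} (hY : g.Conn R Y) (q : Finset g.I × Finset g.I) :
    (q ∈ pairs Y ∧ (g.comps R q.1).card + q.2.card ≤ 1) ↔ q = (Y, ∅) ∨ (q = (∅, Y) ∧ Y.card = 1) := by
  rw [mem_pairs]
  constructor
  · rintro ⟨h1, h2⟩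
    by_cases hT : q.2 = ∅
    · left
      rw [hT, Finset.union_empty] at h1
      exact Prod.ext h1 hT
    · right
      have hc : 0 < q.2.card := Finset.card_pos.2 (Finset.nonempty_iff_ne_empty.2 hT)
      have hZ : q.1 = ∅ := comps_card_eq_zero (R := R) (by omega)
      rw [hZ, Finset.empty_union] at h1
      refine ⟨Prod.ext hZ h1, ?_⟩
      rw [← h1]
      omega
  · rintro (rfl | ⟨rfl, h⟩)
    · simp [comps_self hY]
    · simp [comps_empty, h]

theorem lin_sum {g : Grid G} (H : Finset g.I → 𝔸) (dec : g.I → ℂ) {Y : Finset g.I} (hY : g.Conn R Y) :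
    ∑ q ∈ (pairs Y).filter (fun q => (g.comps R q.1).card + q.2.card ≤ 1), t3 g R H dec q.1 q.2
      = H Y + ∑ b ∈ Y, if Y = {b} then dec b • (1 : 𝔸) else 0 := by
  have hne : Y ≠ ∅ := Finset.nonempty_iff_ne_empty.1 hY.1
  by_cases h1 : Y.card = 1
  · have hset : (pairs Y).filter (fun q => (g.comps R q.1).card + q.2.card ≤ 1) = {(Y, ∅), (∅, Y)} := by
      ext q
      rw [Finset.mem_filter, lin_iff hY]
      simp [h1]
    obtain ⟨b, rfl⟩ := Finset.card_eq_one.1 h1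
    rw [hset, Finset.sum_pair (by
      intro h
      exact hne (Prod.ext_iff.1 h).1)]
    simp [t3, comps_self hY, comps_empty]
  · have hset : (pairs Y).filter (fun q => (g.comps R q.1).card + q.2.card ≤ 1) = {(Y, ∅)} := by
      ext q
      rw [Finset.mem_filter, lin_iff hY]
      simp [h1]
    rw [hset, Finset.sum_singleton]
    have : ∀ b ∈ Y, (if Y = {b} then dec b • (1 : 𝔸) else 0) = 0 := by
      intro b _
      rw [if_neg]
      rintro h
      rw [h] at h1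
      simp at h1
    rw [Finset.sum_eq_zero this]
    simp [t3, comps_self hY]

/-- **the estimate of step 3** -/
theorem kext_le (S : SizeSys P R E) (hsep : S.sep ≤ R) (H : Finset P.g'.I → 𝔸) (dec : P.g'.I → ℂ) (A h x μ : ℝ≥0∞) (hA : 1 ≤ A)
    (hH : ∀ X, (2 * A) ^ X.card * S.szc X (H X) ≤ h) (hdec : ∀ b, A * ‖dec b‖₊ ≤ x) (hh : h ≤ μ) (hx : x ≤ μ * 4⁻¹)
    (hμ : μ ≤ 1) (Y : Finset P.g'.I) (hY : P.g'.Conn R Y) :
    A ^ Y.card * S.szc Y (W3 P.g' R H dec Y - (H Y + ∑ b ∈ Y, if Y = {b} then dec b • (1 : 𝔸) else 0)) ≤ μ ^ 2 := by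
  have e1 : W3 P.g' R H dec Y = ∑ q ∈ pairs Y, t3 P.g' R H dec q.1 q.2 := by
    rw [sum_pairs]
    rfl
  rw [e1, ← lin_sum H dec hY,
    ← Finset.sum_filter_add_sum_filter_not (pairs Y) (fun q => (P.g'.comps R q.1).card + q.2.card ≤ 1), add_sub_cancel_left]
  calc A ^ Y.card * S.szc Y (∑ q ∈ (pairs Y).filter (fun q => ¬ (P.g'.comps R q.1).card + q.2.card ≤ 1), t3 P.g' R H dec q.1 q.2)
      ≤ A ^ Y.card * ∑ q ∈ (pairs Y).filter (fun q => ¬ (P.g'.comps R q.1).card + q.2.card ≤ 1),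
          S.szc Y (t3 P.g' R H dec q.1 q.2) := mul_le_mul' le_rfl (szc_sum S Y _ _)
    _ = ∑ q ∈ (pairs Y).filter (fun q => ¬ (P.g'.comps R q.1).card + q.2.card ≤ 1),
          A ^ Y.card * S.szc Y (t3 P.g' R H dec q.1 q.2) := Finset.mul_sum _ _ _
    _ ≤ ∑ q ∈ (pairs Y).filter (fun q => ¬ (P.g'.comps R q.1).card + q.2.card ≤ 1),
          μ ^ 2 * ((2⁻¹ : ℝ≥0∞) ^ q.1.card * (4⁻¹ : ℝ≥0∞) ^ q.2.card) := by
        refine Finset.sum_le_sum fun q hq => ?_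
        rw [Finset.mem_filter, mem_pairs] at hq
        refine (t3_le S hsep H dec A h x hA hH hdec Y q.1 q.2 hq.1).trans ?_
        have h2 : 2 ≤ (P.g'.comps R q.1).card + q.2.card := by omega
        calc h ^ (P.g'.comps R q.1).card * x ^ q.2.card * (2⁻¹ : ℝ≥0∞) ^ q.1.card
            ≤ μ ^ (P.g'.comps R q.1).card * (μ * 4⁻¹) ^ q.2.card * (2⁻¹ : ℝ≥0∞) ^ q.1.card :=
              mul_le_mul' (mul_le_mul' (pow_le_pow_left₀ zero_le hh _) (pow_le_pow_left₀ zero_le hx _)) le_rfl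
          _ = μ ^ ((P.g'.comps R q.1).card + q.2.card) * ((2⁻¹ : ℝ≥0∞) ^ q.1.card * (4⁻¹ : ℝ≥0∞) ^ q.2.card) := by
              rw [mul_pow, pow_add]; ring
          _ ≤ μ ^ 2 * ((2⁻¹ : ℝ≥0∞) ^ q.1.card * (4⁻¹ : ℝ≥0∞) ^ q.2.card) :=
              mul_le_mul' (pow_le_pow_right_of_le_one' hμ h2) le_rfl
    _ ≤ ∑ q ∈ pairs Y, μ ^ 2 * ((2⁻¹ : ℝ≥0∞) ^ q.1.card * (4⁻¹ : ℝ≥0∞) ^ q.2.card) :=
        Finset.sum_le_sum_of_subset (Finset.filter_subset _ _)
    _ = μ ^ 2 * M3 2⁻¹ 4⁻¹ Y := by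
        rw [← Finset.mul_sum, sum_pairs Y (fun Z T => (2⁻¹ : ℝ≥0∞) ^ Z.card * (4⁻¹ : ℝ≥0∞) ^ T.card)]
        rfl
    _ ≤ μ ^ 2 * 1 := by
        refine mul_le_mul' le_rfl ?_
        rw [M3_eq]
        apply pow_le_one₀ zero_le
        have e : (2⁻¹ : ℝ≥0∞) + 4⁻¹ + 2⁻¹ * 4⁻¹ = ((2⁻¹ + 4⁻¹ + 2⁻¹ * 4⁻¹ : ℝ≥0) : ℝ≥0∞) := by
          push_cast
          rfl
        rw [e]
        have : (2⁻¹ + 4⁻¹ + 2⁻¹ * 4⁻¹ : ℝ≥0) ≤ 1 := by
          rw [← NNReal.coe_le_coe]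
          push_cast
          norm_num
        exact_mod_cast this
    _ = μ ^ 2 := mul_one _

end Claimed.Agent.R285.Est
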