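import Claimed.Agent.R285.Est.Step2c
import Claimed.Agent.R285.Est.Step3

/-!
# ROW 285, package PK-EST, file 7: assembly of the three steps (pointwise form)     (helper165)
-/

set_option autoImplicit false

namespace Claimed.Agent.R285.Est

open scoped BigOperators ENNReal NNReal
open Claimed.Agent.R285.RG Claimed.Agent.R285.Alg
open Classical

variable {G : Geom} {D0 ℓ : ℕ} {P : Pair G D0 ℓ} {r R : ℕ} {𝔸 : Type} [CommRing 𝔸] [Algebra ℂ 𝔸] {E : 𝔸 → 𝔸}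

/-! ### scalars -/

theorem dec_bounds (a : ℂ) (ha : ‖a‖ ≤ 1 / 2) :
    ‖(1 + a)⁻¹ - 1‖ ≤ 2 * ‖a‖ ∧ ‖(1 + a)⁻¹ - 1 + a‖ ≤ 2 * ‖a‖ ^ 2 := by
  have h1 : 1 / 2 ≤ ‖1 + a‖ := by
    have := norm_sub_norm_le (1 : ℂ) (-a)
    rw [norm_one, norm_neg, sub_neg_eq_add] at this
    linarith
  have hne : 1 + a ≠ 0 := by
    intro h
    rw [h, norm_zero] at h1
    linarith
  have hinv : ‖(1 + a)⁻¹‖ ≤ 2 := by
    rw [norm_inv]
    calc ‖1 + a‖⁻¹ ≤ (1 / 2 : ℝ)⁻¹ := inv_anti₀ (by norm_num) h1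
      _ = 2 := by norm_num
  constructor
  · have e : (1 + a)⁻¹ - 1 = -(a * (1 + a)⁻¹) := by
      field_simp
      ring
    rw [e, norm_neg, norm_mul]
    nlinarith [norm_nonneg a]
  · have e : (1 + a)⁻¹ - 1 + a = a ^ 2 * (1 + a)⁻¹ := by
      field_simp
      ring
    rw [e, norm_mul, norm_pow]
    nlinarith [sq_nonneg ‖a‖]

theorem dec_bounds' (a : ℂ) (ν : ℝ≥0∞) (hν : ν ≤ 2⁻¹) (ha : (‖a‖₊ : ℝ≥0∞) ≤ ν) :
    (‖(1 + a)⁻¹ - 1‖₊ : ℝ≥0∞) ≤ 2 * ν ∧ (‖(1 + a)⁻¹ - 1 + a‖₊ : ℝ≥0∞) ≤ 2 * ν ^ 2 := by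
  have h0 : (‖a‖₊ : ℝ≥0∞) ≤ ((2⁻¹ : ℝ≥0) : ℝ≥0∞) := by
    refine (ha.trans hν).trans (le_of_eq ?_)
    push_cast
    rfl
  have h1 : ‖a‖ ≤ 1 / 2 := by
    have : ‖a‖₊ ≤ (2⁻¹ : ℝ≥0) := by exact_mod_cast h0
    have h2 : (‖a‖₊ : ℝ) ≤ ((2⁻¹ : ℝ≥0) : ℝ) := by exact_mod_cast this
    simpa using h2
  obtain ⟨b1, b2⟩ := dec_bounds a h1
  constructor
  · have : ‖(1 + a)⁻¹ - 1‖₊ ≤ 2 * ‖a‖₊ := by
      rw [← NNReal.coe_le_coe]
      push_cast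
      exact b1
    calc (‖(1 + a)⁻¹ - 1‖₊ : ℝ≥0∞) ≤ ((2 * ‖a‖₊ : ℝ≥0) : ℝ≥0∞) := by exact_mod_cast this
      _ = 2 * (‖a‖₊ : ℝ≥0∞) := by push_cast; rfl
      _ ≤ 2 * ν := mul_le_mul' le_rfl ha
  · have : ‖(1 + a)⁻¹ - 1 + a‖₊ ≤ 2 * ‖a‖₊ ^ 2 := by
      rw [← NNReal.coe_le_coe]
      push_cast
      exact b2
    calc (‖(1 + a)⁻¹ - 1 + a‖₊ : ℝ≥0∞) ≤ ((2 * ‖a‖₊ ^ 2 : ℝ≥0) : ℝ≥0∞) := by exact_mod_cast this
      _ = 2 * (‖a‖₊ : ℝ≥0∞) ^ 2 := by push_cast; rfl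
      _ ≤ 2 * ν ^ 2 := mul_le_mul' le_rfl (pow_le_pow_left₀ zero_le ha 2)

/-! ### consequences of `nd d ≤ ν` -/

theorem nd_F (S : SizeSys P R E) (d : Desig P.g' 𝔸) (ν : ℝ≥0∞) (h : S.nd d ≤ ν) (b : P.g'.I) :
    ∑ Y : Finset P.g'.I, S.szc {b} (d.F Y b) ≤ ν :=
  le_trans (le_trans le_self_add (le_iSup (fun b : P.g'.I => (∑ Y : Finset P.g'.I, S.szc {b} (d.F Y b)) + (‖d.a b‖₊ : ℝ≥0∞)) b)) h

theorem nd_a (S : SizeSys P R E) (d : Desig P.g' 𝔸) (ν : ℝ≥0∞) (h : S.nd d ≤ ν) (b : P.g'.I) : (‖d.a b‖₊ : ℝ≥0∞) ≤ ν :=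
  le_trans (le_trans le_add_self (le_iSup (fun b : P.g'.I => (∑ Y : Finset P.g'.I, S.szc {b} (d.F Y b)) + (‖d.a b‖₊ : ℝ≥0∞)) b)) h

theorem nd_F1 (S : SizeSys P R E) (d : Desig P.g' 𝔸) (ν : ℝ≥0∞) (h : S.nd d ≤ ν) (Y : Finset P.g'.I) (b : P.g'.I) :
    S.szc {b} (d.F Y b) ≤ ν :=
  le_trans (Finset.single_le_sum (f := fun Y => S.szc {b} (d.F Y b)) (fun _ _ => zero_le) (Finset.mem_univ Y)) (nd_F S d ν h b)

/-- the designated pieces of one label, measured on the label -/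
theorem F_bound (S : SizeSys P R E) (d : Desig P.g' 𝔸) (hd : d.Small r P.g') (hfour : ∀ Y : Finset P.g'.I, P.g'.idiam Y ≤ 1 → Y.card ≤ 4)
    (ν B : ℝ≥0∞) (hB : 1 ≤ B) (h : S.nd d ≤ ν) (Y : Finset P.g'.I) :
    B ^ Y.card * S.szc Y (∑ b ∈ Y, d.F Y b) ≤ 4 * B ^ 4 * ν := by
  by_cases hY : P.g'.idiam Y ≤ 1
  · have hc := hfour Y hY
    calc B ^ Y.card * S.szc Y (∑ b ∈ Y, d.F Y b) ≤ B ^ 4 * ∑ b ∈ Y, S.szc Y (d.F Y b) :=
          mul_le_mul' (pow_le_pow_right₀ hB hc) (szc_sum S _ _ _)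
      _ ≤ B ^ 4 * ∑ _b ∈ Y, ν := by
          refine mul_le_mul' le_rfl (Finset.sum_le_sum fun b hb => ?_)
          exact (S.szc_mono {b} Y _ (Finset.singleton_subset_iff.2 hb)).trans (nd_F1 S d ν h Y b)
      _ = B ^ 4 * (Y.card * ν) := by simp
      _ ≤ B ^ 4 * (4 * ν) := by
          refine mul_le_mul' le_rfl (mul_le_mul' ?_ le_rfl)
          exact_mod_cast hc
      _ = 4 * B ^ 4 * ν := by ring
  · have : ∑ b ∈ Y, d.F Y b = 0 := Finset.sum_eq_zero fun b _ => hd Y b (fun hc => hY hc.2.1)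
    rw [this, S.szc_zero, mul_zero]
    exact zero_le

/-! ### the algebraic identity for the linear parts -/

theorem T2_eq {g : Grid G} (d : Desig g 𝔸) (Y : Finset g.I) :
    ∑ W : Finset g.I, ∑ b ∈ W, (if Y = {b} then d.F W b else 0)
      = ∑ b ∈ Y, if Y = {b} then ∑ Y' : Finset g.I, (if b ∈ Y' then d.F Y' b else 0) else 0 := by
  have h1 : ∀ W : Finset g.I, ∑ b ∈ W, (if Y = {b} then d.F W b else 0)
      = ∑ b : g.I, if Y = {b} then (if b ∈ W then d.F W b else 0) else 0 := by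
    intro W
    apply Finset.sum_subset_zero_on_sdiff (Finset.subset_univ _)
    · intro b hb
      rw [if_neg (Finset.mem_sdiff.1 hb).2]
      simp
    · intro b hb
      rw [if_pos hb]
  simp_rw [h1]
  rw [Finset.sum_comm]
  symm
  apply Finset.sum_subset_zero_on_sdiff (Finset.subset_univ _)
  · intro b hb
    apply Finset.sum_eq_zero
    intro W _
    rw [if_neg]
    intro hc
    apply (Finset.mem_sdiff.1 hb).2
    rw [hc]
    exact Finset.mem_singleton_self b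
  · intro b _
    by_cases hb : Y = {b}
    · simp [hb]
    · simp [hb]

theorem lin_match {n0 N : ℕ} (hG : GeoHyp P r R n0 N) (K : Finset P.g.I → 𝔸) (d : Desig P.g' 𝔸) (hd : d.Small r P.g')
    (dec : P.g'.I → ℂ) (Y : Finset P.g'.I) (hY : P.g'.Conn R Y) :
    Hlin r (Ktil P r R E K) d Y + (∑ b ∈ Y, if Y = {b} then dec b • (1 : 𝔸) else 0) - Klin P R E K d Y
      = (if P.g'.Conn r Y then Q1 P R E K Y else 0) + ∑ b ∈ Y, if Y = {b} then (dec b + d.a b) • (1 : 𝔸) else 0 := by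
  unfold Klin Hlin
  rw [if_pos hY, T2_eq]
  have e1 : (if P.g'.Conn r Y then Ktil P r R E K Y - ∑ b ∈ Y, d.F Y b else 0)
      = (∑ X ∈ Finset.univ.filter (fun X : Finset P.g.I => P.g.Conn R X ∧ P.N.cl X = Y), E (K X)) - (∑ b ∈ Y, d.F Y b)
        + (if P.g'.Conn r Y then Q1 P R E K Y else 0) := by
    by_cases hc : P.g'.Conn r Y
    · rw [if_pos hc, if_pos hc, Ktil_split K Y hc]
      unfold L1
      ring
    · rw [if_neg hc, if_neg hc]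
      have z1 : ∑ X ∈ Finset.univ.filter (fun X : Finset P.g.I => P.g.Conn R X ∧ P.N.cl X = Y), E (K X) = 0 := by
        apply Finset.sum_eq_zero
        intro X hX
        simp only [Finset.mem_filter, Finset.mem_univ, true_and] at hX
        exact absurd (hX.2 ▸ hG.conn X hX.1) hc
      have z2 : ∑ b ∈ Y, d.F Y b = 0 := Finset.sum_eq_zero fun b _ => hd Y b (fun h => hc h.1)
      rw [z1, z2]
      simp
  have e2 : (∑ b ∈ Y, if Y = {b} then (dec b + d.a b) • (1 : 𝔸) else 0)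
      = (∑ b ∈ Y, if Y = {b} then ∑ Y' : Finset P.g'.I, (if b ∈ Y' then d.F Y' b else 0) else 0)
        + (∑ b ∈ Y, if Y = {b} then dec b • (1 : 𝔸) else 0)
        - ∑ b ∈ Y, if Y = {b} then (∑ Y' : Finset P.g'.I, if b ∈ Y' then d.F Y' b else 0) - d.a b • 1 else 0 := by
    rw [← Finset.sum_add_distrib, ← Finset.sum_sub_distrib]
    refine Finset.sum_congr rfl fun b _ => ?_
    by_cases hb : Y = {b}
    · simp only [if_pos hb, add_smul]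
      ring
    · simp only [if_neg hb]
      ring
  rw [e1, e2]
  ring

end Claimed.Agent.R285.Est
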