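import Claimed.Agent.R285.Est.Point

/-!
# ROW 285, package PK-EST, file 9: [B] P4.8 (rg:nonlinear-map), abstract form, from the geometric hypotheses `GeoHyp`     (helper165)
-/

set_option autoImplicit false

namespace Claimed.Agent.R285.Est

open scoped BigOperators ENNReal NNReal
open Claimed.Agent.R285.RG Claimed.Agent.R285.Alg
open Classical

variable {G : Geom} {D0 ℓ : ℕ} {P : Pair G D0 ℓ} {r R : ℕ} {𝔸 : Type} [CommRing 𝔸] [Algebra ℂ 𝔸] {E : 𝔸 → 𝔸}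

variable {A cst β c2 : ℝ≥0} {n0 N : ℕ} {ε ν μ2 μ3 : ℝ≥0∞}

theorem pow_le_two_mul_pow (A : ℝ≥0∞) (n : ℕ) : A ^ n ≤ (2 * A) ^ n :=
  pow_le_pow_left₀ zero_le (by
    calc A = 1 * A := (one_mul _).symm
      _ ≤ 2 * A := mul_le_mul' (by norm_num) le_rfl) n

theorem pow_le_four_mul_pow (A : ℝ≥0∞) (n : ℕ) : A ^ n ≤ (4 * A) ^ n :=
  pow_le_pow_left₀ zero_le (by
    calc A = 1 * A := (one_mul _).symm
      _ ≤ 4 * A := mul_le_mul' (by norm_num) le_rfl) n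

theorem sing_bound (S : SizeSys P R E) (d : Desig P.g' 𝔸) (hN : Num A cst β c2 n0 N ε ν μ2 μ3) (hnd : S.nd d ≤ ν)
    (Y : Finset P.g'.I) :
    (A : ℝ≥0∞) ^ Y.card * S.szc Y (∑ b ∈ Y, if Y = {b} then ((1 + d.a b)⁻¹ - 1 + d.a b) • (1 : 𝔸) else 0) ≤ 2 * A * ν ^ 2 := by
  by_cases hY : ∃ b0, Y = {b0}
  · obtain ⟨b0, rfl⟩ := hY
    rw [Finset.sum_singleton, if_pos rfl, Finset.card_singleton, pow_one]
    calc (A : ℝ≥0∞) * S.szc {b0} (((1 + d.a b0)⁻¹ - 1 + d.a b0) • (1 : 𝔸))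
        ≤ A * ((‖(1 + d.a b0)⁻¹ - 1 + d.a b0‖₊ : ℝ≥0∞) * S.szc {b0} 1) := mul_le_mul' le_rfl (S.szc_smul _ _ _)
      _ ≤ A * ((2 * ν ^ 2) * 1) :=
          mul_le_mul' le_rfl (mul_le_mul' (dec_bounds' _ ν hN.hν (nd_a S d ν hnd b0)).2 (S.szc_one _))
      _ = 2 * A * ν ^ 2 := by ring
  · have : ∑ b ∈ Y, (if Y = {b} then ((1 + d.a b)⁻¹ - 1 + d.a b) • (1 : 𝔸) else 0) = 0 := by
      apply Finset.sum_eq_zero
      intro b _
      rw [if_neg (fun hc => hY ⟨b, hc⟩)]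
    rw [this, S.szc_zero, mul_zero]
    exact zero_le

/-- **the pointwise estimate** -/
theorem point_le (S : SizeSys P R E) (hsep : S.sep ≤ r) (hrR : r + 2 < R) (K : Finset P.g.I → 𝔸) (d : Desig P.g' 𝔸)
    (hd : d.Small r P.g') (hN : Num A cst β c2 n0 N ε ν μ2 μ3) (hG : GeoHyp P r R n0 N) (hcst : S.cst ≤ cst)
    (hK : S.nf A K ≤ ε) (hnd : S.nd d ≤ ν) (Y : Finset P.g'.I) :
    (A : ℝ≥0∞) ^ Y.card * S.szc Y ((Kprime P r R E K d - Klin P R E K d) Y)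
      ≤ μ3 ^ 2 + μ2 ^ 2 + (c2 * ε) ^ 2 + 2 * A * ν ^ 2 := by
  rw [Pi.sub_apply]
  by_cases hY : P.g'.Conn R Y
  · set Kt := Ktil P r R E K with hKt
    set H := Hrel r R P.g' Kt d with hH
    set dec : P.g'.I → ℂ := fun b => (1 + d.a b)⁻¹ - 1 with hdec
    have e0 : Kprime P r R E K d Y = W3 P.g' R H dec Y := Kext_eq H d Y hY
    have e1 : W3 P.g' R H dec Y - Klin P R E K d Y
        = (W3 P.g' R H dec Y - (H Y + ∑ b ∈ Y, if Y = {b} then dec b • (1 : 𝔸) else 0))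
          + (H Y - Hlin r Kt d Y)
          + (Hlin r Kt d Y + (∑ b ∈ Y, if Y = {b} then dec b • (1 : 𝔸) else 0) - Klin P R E K d Y) := by ring
    rw [e0, e1, lin_match hG K d hd dec Y hY]
    have b3 : (A : ℝ≥0∞) ^ Y.card * S.szc Y (W3 P.g' R H dec Y - (H Y + ∑ b ∈ Y, if Y = {b} then dec b • (1 : 𝔸) else 0))
        ≤ μ3 ^ 2 := by
      refine kext_le S (hsep.trans (by omega)) H dec A (3 * μ2) (A * (2 * ν)) μ3 hN.hA'
        (H_bound S hsep K d hd hN hG hcst hK hnd) ?_ ?_ ?_ hN.hμ3 Y hY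
      · intro b
        exact mul_le_mul' le_rfl (dec_bounds' _ ν hN.hν (nd_a S d ν hnd b)).1
      · exact le_trans le_self_add hN.h3
      · apply quarter
        refine le_trans (le_of_eq ?_) (le_trans le_add_self hN.h3)
        rw [← mul_assoc, ← mul_assoc, mul_comm 4 (A : ℝ≥0∞), mul_assoc (A : ℝ≥0∞) 4 2, mul_comm (A : ℝ≥0∞)]
        norm_num
    have b2 : (A : ℝ≥0∞) ^ Y.card * S.szc Y (H Y - Hlin r Kt d Y) ≤ μ2 ^ 2 := by
      rw [hH, Hrel_eq Kt d Y hY]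
      refine le_trans (mul_le_mul' (pow_le_two_mul_pow _ _) le_rfl) ?_
      exact hrel_le S hsep (2 * (A : ℝ≥0∞)) μ2 hN.h2A hN.μ2_le_one Kt d hd
        (res_bound S K d hd hN hG hcst hK hnd) (F_rooted S d hN hnd) Y hY.1
    have b1 : (A : ℝ≥0∞) ^ Y.card * S.szc Y (if P.g'.Conn r Y then Q1 P R E K Y else 0) ≤ (c2 * ε) ^ 2 := by
      split_ifs
      · refine le_trans (mul_le_mul' (pow_le_four_mul_pow _ _) le_rfl) ?_
        have q1 := Q1_le S K hN.c1 hG hN.hβ ε hN.c2ε_le hcst hK Y hY.1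
        rw [cast4] at q1
        refine q1.trans ?_
        calc ((c2 : ℝ≥0∞) * ε) ^ 2 * ((β : ℝ≥0∞) * 2 ^ N) ^ Y.card ≤ (c2 * ε) ^ 2 * 1 :=
              mul_le_mul' le_rfl (pow_le_one₀ zero_le hN.hβN)
          _ = (c2 * ε) ^ 2 := mul_one _
      · rw [S.szc_zero, mul_zero]; exact zero_le
    have b0 := sing_bound S d hN hnd Y
    calc _ ≤ (A : ℝ≥0∞) ^ Y.card * (S.szc Y (W3 P.g' R H dec Y - (H Y + ∑ b ∈ Y, if Y = {b} then dec b • (1 : 𝔸) else 0))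
              + S.szc Y (H Y - Hlin r Kt d Y)
              + (S.szc Y (if P.g'.Conn r Y then Q1 P R E K Y else 0)
                + S.szc Y (∑ b ∈ Y, if Y = {b} then (dec b + d.a b) • (1 : 𝔸) else 0))) := by
          refine mul_le_mul' le_rfl ?_
          refine (S.szc_add _ _ _).trans (add_le_add (S.szc_add _ _ _) (S.szc_add _ _ _))
      _ ≤ μ3 ^ 2 + μ2 ^ 2 + ((c2 * ε) ^ 2 + 2 * A * ν ^ 2) := by
          rw [mul_add, mul_add, mul_add]
          exact add_le_add (add_le_add b3 b2) (add_le_add b1 b0)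
      _ = μ3 ^ 2 + μ2 ^ 2 + (c2 * ε) ^ 2 + 2 * A * ν ^ 2 := by ring
  · have e1 : Kprime P r R E K d Y = 0 := by
      unfold Kprime Kext
      rw [if_neg hY]
    have e2 : Klin P R E K d Y = 0 := by
      unfold Klin
      rw [if_neg hY]
    rw [e1, e2, sub_zero, S.szc_zero, mul_zero]
    exact zero_le

end Claimed.Agent.R285.Est
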