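import Claimed.Agent.R285.Est.Core

/-!
# ROW 285, package PK-EST, file 8: the pointwise estimate of `K' - K'_lin`     (helper165)
-/

set_option autoImplicit false

namespace Claimed.Agent.R285.Est

open scoped BigOperators ENNReal NNReal
open Claimed.Agent.R285.RG Claimed.Agent.R285.Alg
open Classical

variable {G : Geom} {D0 ℓ : ℕ} {P : Pair G D0 ℓ} {r R : ℕ} {𝔸 : Type} [CommRing 𝔸] [Algebra ℂ 𝔸] {E : 𝔸 → 𝔸}

/-- all numerical hypotheses of the estimate -/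
structure Num (A cst β c2 : ℝ≥0) (n0 N : ℕ) (ε ν μ2 μ3 : ℝ≥0∞) : Prop where
  c1 : C1 4 A cst β c2 n0
  hA : 1 ≤ A
  hβ : β ≤ 1
  hβN : (β : ℝ≥0∞) * 2 ^ N ≤ 1
  hν : ν ≤ 2⁻¹
  h2 : 2 * (c2 * ε) + 4 * (4 * (A : ℝ≥0∞)) ^ 4 * ν + 8 * A * ν ≤ μ2
  h3 : 3 * μ2 + 8 * A * ν ≤ μ3
  hμ3 : μ3 ≤ 1

namespace Num

variable {A cst β c2 : ℝ≥0} {n0 N : ℕ} {ε ν μ2 μ3 : ℝ≥0∞} (h : Num A cst β c2 n0 N ε ν μ2 μ3)
include h

theorem μ2_le_μ3 : μ2 ≤ μ3 := by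
  refine le_trans ?_ h.h3
  calc μ2 = 1 * μ2 := (one_mul _).symm
    _ ≤ 3 * μ2 := mul_le_mul' (by norm_num) le_rfl
    _ ≤ 3 * μ2 + 8 * A * ν := le_self_add

theorem μ2_le_one : μ2 ≤ 1 := h.μ2_le_μ3.trans h.hμ3

theorem c2ε_le : c2 * ε ≤ 1 := by
  refine le_trans ?_ h.μ2_le_one
  refine le_trans ?_ h.h2
  calc (c2 : ℝ≥0∞) * ε = 1 * (c2 * ε) := (one_mul _).symm
    _ ≤ 2 * (c2 * ε) := mul_le_mul' (by norm_num) le_rfl
    _ ≤ 2 * (c2 * ε) + 4 * (4 * (A : ℝ≥0∞)) ^ 4 * ν + 8 * A * ν := by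
        rw [add_assoc]; exact le_self_add

theorem hA' : (1 : ℝ≥0∞) ≤ A := by exact_mod_cast h.hA

theorem h2A : (1 : ℝ≥0∞) ≤ 2 * A := by
  calc (1 : ℝ≥0∞) = 1 * 1 := (one_mul _).symm
    _ ≤ 2 * A := mul_le_mul' (by norm_num) h.hA'

theorem h4A : (1 : ℝ≥0∞) ≤ 4 * A := by
  calc (1 : ℝ≥0∞) = 1 * 1 := (one_mul _).symm
    _ ≤ 4 * A := mul_le_mul' (by norm_num) h.hA'

end Num

theorem cast4 (A : ℝ≥0) : ((4 * A : ℝ≥0) : ℝ≥0∞) = 4 * (A : ℝ≥0∞) := by push_cast; rfl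

section

variable {A cst β c2 : ℝ≥0} {n0 N : ℕ} {ε ν μ2 μ3 : ℝ≥0∞}

theorem Kt_bound (S : SizeSys P R E) (K : Finset P.g.I → 𝔸) (hN : Num A cst β c2 n0 N ε ν μ2 μ3) (hG : GeoHyp P r R n0 N)
    (hcst : S.cst ≤ cst) (hK : S.nf A K ≤ ε) (Y : Finset P.g'.I) :
    (4 * (A : ℝ≥0∞)) ^ Y.card * S.szc Y (Ktil P r R E K Y) ≤ 2 * (c2 * ε) := by
  by_cases hY : P.g'.Conn r Y
  · have hp : ((β : ℝ≥0∞) * 2 ^ N) ^ Y.card ≤ 1 := pow_le_one₀ zero_le hN.hβN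
    have l1 := L1_le S K hN.c1 hG hN.hβ ε hcst hK Y
    have q1 := Q1_le S K hN.c1 hG hN.hβ ε hN.c2ε_le hcst hK Y hY.1
    rw [cast4] at l1 q1
    rw [Ktil_split K Y hY]
    calc (4 * (A : ℝ≥0∞)) ^ Y.card * S.szc Y (L1 P R E K Y + Q1 P R E K Y)
        ≤ (4 * (A : ℝ≥0∞)) ^ Y.card * (S.szc Y (L1 P R E K Y) + S.szc Y (Q1 P R E K Y)) := mul_le_mul' le_rfl (S.szc_add _ _ _)
      _ = (4 * (A : ℝ≥0∞)) ^ Y.card * S.szc Y (L1 P R E K Y) + (4 * (A : ℝ≥0∞)) ^ Y.card * S.szc Y (Q1 P R E K Y) := mul_add _ _ _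
      _ ≤ c2 * ε * 1 + (c2 * ε) ^ 2 * 1 :=
          add_le_add (l1.trans (mul_le_mul' le_rfl hp)) (q1.trans (mul_le_mul' le_rfl hp))
      _ ≤ c2 * ε + c2 * ε := by
          rw [mul_one, mul_one]
          refine add_le_add le_rfl ?_
          calc ((c2 : ℝ≥0∞) * ε) ^ 2 = (c2 * ε) * (c2 * ε) := sq _
            _ ≤ (c2 * ε) * 1 := mul_le_mul' le_rfl hN.c2ε_le
            _ = c2 * ε := mul_one _
      _ = 2 * (c2 * ε) := (two_mul _).symm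
  · unfold Ktil
    rw [if_neg hY, S.szc_zero, mul_zero]
    exact zero_le

theorem res_bound (S : SizeSys P R E) (K : Finset P.g.I → 𝔸) (d : Desig P.g' 𝔸) (hd : d.Small r P.g')
    (hN : Num A cst β c2 n0 N ε ν μ2 μ3) (hG : GeoHyp P r R n0 N) (hcst : S.cst ≤ cst) (hK : S.nf A K ≤ ε) (hnd : S.nd d ≤ ν)
    (Y : Finset P.g'.I) :
    (2 * (A : ℝ≥0∞)) ^ Y.card * S.szc Y (Ktil P r R E K Y - ∑ b ∈ Y, d.F Y b) ≤ μ2 * (2⁻¹ : ℝ≥0∞) ^ Y.card := by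
  rw [half_pow_mul, mul_comm]
  refine mul_le_mul' ?_ le_rfl
  have e : (2 * (2 * (A : ℝ≥0∞))) = 4 * A := by rw [← mul_assoc]; norm_num
  rw [e]
  calc (4 * (A : ℝ≥0∞)) ^ Y.card * S.szc Y (Ktil P r R E K Y - ∑ b ∈ Y, d.F Y b)
      ≤ (4 * (A : ℝ≥0∞)) ^ Y.card * (S.szc Y (Ktil P r R E K Y) + S.szc Y (∑ b ∈ Y, d.F Y b)) :=
        mul_le_mul' le_rfl (szc_sub S _ _ _)
    _ = (4 * (A : ℝ≥0∞)) ^ Y.card * S.szc Y (Ktil P r R E K Y) + (4 * (A : ℝ≥0∞)) ^ Y.card * S.szc Y (∑ b ∈ Y, d.F Y b) :=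
        mul_add _ _ _
    _ ≤ 2 * (c2 * ε) + 4 * (4 * (A : ℝ≥0∞)) ^ 4 * ν :=
        add_le_add (Kt_bound S K hN hG hcst hK Y) (F_bound S d hd hG.four ν _ hN.h4A hnd Y)
    _ ≤ 2 * (c2 * ε) + 4 * (4 * (A : ℝ≥0∞)) ^ 4 * ν + 8 * A * ν := le_self_add
    _ ≤ μ2 := hN.h2

theorem quarter (a μ : ℝ≥0∞) (h : 4 * a ≤ μ) : a ≤ μ * 4⁻¹ := by
  calc a = (4 * a) * 4⁻¹ := by
        rw [mul_comm 4 a, mul_assoc, ENNReal.mul_inv_cancel (by norm_num) (by norm_num), mul_one]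
    _ ≤ μ * 4⁻¹ := mul_le_mul' h le_rfl

theorem F_rooted (S : SizeSys P R E) (d : Desig P.g' 𝔸) (hN : Num A cst β c2 n0 N ε ν μ2 μ3) (hnd : S.nd d ≤ ν) (b : P.g'.I) :
    ∑ Y : Finset P.g'.I, 2 * (A : ℝ≥0∞) * S.szc {b} (d.F Y b) ≤ μ2 * 4⁻¹ := by
  rw [← Finset.mul_sum]
  apply quarter
  calc 4 * (2 * (A : ℝ≥0∞) * ∑ Y : Finset P.g'.I, S.szc {b} (d.F Y b)) ≤ 4 * (2 * (A : ℝ≥0∞) * ν) :=
        mul_le_mul' le_rfl (mul_le_mul' le_rfl (nd_F S d ν hnd b))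
    _ = 8 * A * ν := by
        rw [← mul_assoc, ← mul_assoc]; norm_num
    _ ≤ 2 * (c2 * ε) + 4 * (4 * (A : ℝ≥0∞)) ^ 4 * ν + 8 * A * ν := le_add_self
    _ ≤ μ2 := hN.h2

/-- the linear part of `H` in the norm `2A` -/
theorem Hlin_bound (S : SizeSys P R E) (K : Finset P.g.I → 𝔸) (d : Desig P.g' 𝔸) (hd : d.Small r P.g')
    (hN : Num A cst β c2 n0 N ε ν μ2 μ3) (hG : GeoHyp P r R n0 N) (hcst : S.cst ≤ cst) (hK : S.nf A K ≤ ε) (hnd : S.nd d ≤ ν)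
    (X : Finset P.g'.I) :
    (2 * (A : ℝ≥0∞)) ^ X.card * S.szc X (Hlin r (Ktil P r R E K) d X) ≤ 2 * μ2 := by
  unfold Hlin
  refine (mul_le_mul' le_rfl (S.szc_add _ _ _)).trans ?_
  rw [mul_add, two_mul μ2]
  refine add_le_add ?_ ?_
  · split_ifs
    · refine (res_bound S K d hd hN hG hcst hK hnd X).trans ?_
      calc μ2 * (2⁻¹ : ℝ≥0∞) ^ X.card ≤ μ2 * 1 :=
            mul_le_mul' le_rfl (pow_le_one₀ zero_le (ENNReal.inv_le_one.2 (by norm_num)))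
        _ = μ2 := mul_one _
    · rw [S.szc_zero, mul_zero]; exact zero_le
  · by_cases hX : ∃ b0, X = {b0}
    · obtain ⟨b0, rfl⟩ := hX
      rw [Finset.card_singleton, pow_one]
      refine (mul_le_mul' le_rfl (szc_sum S _ _ _)).trans ?_
      rw [Finset.mul_sum]
      refine le_trans (Finset.sum_le_sum fun W _ => ?_) ((F_rooted S d hN hnd b0).trans ?_)
      · refine (mul_le_mul' le_rfl (szc_sum S _ _ _)).trans ?_
        rw [Finset.mul_sum]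
        by_cases hb : b0 ∈ W
        · rw [Finset.sum_eq_single b0]
          · rw [if_pos rfl]
          · intro b _ hne
            rw [if_neg (fun hc => hne (Finset.singleton_inj.1 hc).symm), S.szc_zero, mul_zero]
          · intro hc
            exact absurd hb hc
        · apply le_of_eq_of_le _ zero_le
          apply Finset.sum_eq_zero
          intro b hbW
          rw [if_neg, S.szc_zero, mul_zero]
          intro hc
          exact hb ((Finset.singleton_inj.1 hc) ▸ hbW)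
      · calc μ2 * 4⁻¹ ≤ μ2 * 1 := mul_le_mul' le_rfl (ENNReal.inv_le_one.2 (by norm_num))
          _ = μ2 := mul_one _
    · have : ∑ W : Finset P.g'.I, ∑ b ∈ W, (if X = {b} then d.F W b else 0) = 0 := by
        apply Finset.sum_eq_zero
        intro W _
        apply Finset.sum_eq_zero
        intro b _
        rw [if_neg (fun hc => hX ⟨b, hc⟩)]
      rw [this, S.szc_zero, mul_zero]
      exact zero_le

/-- `H` in the norm `2A` -/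
theorem H_bound (S : SizeSys P R E) (hsep : S.sep ≤ r) (K : Finset P.g.I → 𝔸) (d : Desig P.g' 𝔸) (hd : d.Small r P.g')
    (hN : Num A cst β c2 n0 N ε ν μ2 μ3) (hG : GeoHyp P r R n0 N) (hcst : S.cst ≤ cst) (hK : S.nf A K ≤ ε) (hnd : S.nd d ≤ ν)
    (X : Finset P.g'.I) :
    (2 * (A : ℝ≥0∞)) ^ X.card * S.szc X (Hrel r R P.g' (Ktil P r R E K) d X) ≤ 3 * μ2 := by
  by_cases hX : P.g'.Conn R X
  · rw [Hrel_eq _ d X hX]
    have e : W2 r (Ktil P r R E K) d X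
        = (W2 r (Ktil P r R E K) d X - Hlin r (Ktil P r R E K) d X) + Hlin r (Ktil P r R E K) d X := by ring
    rw [e]
    refine (mul_le_mul' le_rfl (S.szc_add _ _ _)).trans ?_
    rw [mul_add]
    have b1 := hrel_le S hsep (2 * (A : ℝ≥0∞)) μ2 hN.h2A hN.μ2_le_one (Ktil P r R E K) d hd
      (res_bound S K d hd hN hG hcst hK hnd) (F_rooted S d hN hnd) X hX.1
    have b2 := Hlin_bound S K d hd hN hG hcst hK hnd X
    calc _ ≤ μ2 ^ 2 + 2 * μ2 := add_le_add b1 b2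
      _ ≤ μ2 + 2 * μ2 := by
          refine add_le_add ?_ le_rfl
          calc μ2 ^ 2 = μ2 * μ2 := sq _
            _ ≤ μ2 * 1 := mul_le_mul' le_rfl hN.μ2_le_one
            _ = μ2 := mul_one _
      _ = 3 * μ2 := by ring
  · unfold Hrel
    rw [if_neg hX, S.szc_zero, mul_zero]
    exact zero_le

end

end Claimed.Agent.R285.Est
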