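import Claimed.Agent.R285.Est.Basic

/-!
# ROW 285, package PK-EST, file 2: the estimate of step 1 (`K̃` in the norm `λ A`)     (helper165)
-/

set_option autoImplicit false

namespace Claimed.Agent.R285.Est

open scoped BigOperators ENNReal NNReal
open Claimed.Agent.R285.RG Claimed.Agent.R285.Alg
open Classical

variable {G : Geom} {D0 ℓ : ℕ} {P : Pair G D0 ℓ} {r R : ℕ} {𝔸 : Type} [CommRing 𝔸] [Algebra ℂ 𝔸] {E : 𝔸 → 𝔸}

/-- the geometric input of the estimate (from [B] L4.3) -/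
structure GeoHyp (P : Pair G D0 ℓ) (r R n0 N : ℕ) : Prop where
  half : ∀ X : Finset P.g.I, P.g.Conn R X → n0 < X.card → 2 * (P.N.cl X).card ≤ X.card
  fibre : ∀ y, (fib P y).card ≤ N
  conn : ∀ X : Finset P.g.I, P.g.Conn R X → P.g'.Conn r (P.N.cl X)
  four : ∀ Y : Finset P.g'.I, P.g'.idiam Y ≤ 1 → Y.card ≤ 4

theorem card_eq_sum_comps {g : Grid G} (V : Finset g.I) : V.card = ∑ X ∈ g.comps R V, X.card := by
  conv_lhs => rw [← comps_biUnion (R := R) V]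
  apply Finset.card_biUnion
  intro X hX X' hX' hne
  exact comps_disjoint hX hX' hne

theorem cl_card_le (V : Finset P.g.I) : (P.N.cl V).card ≤ ∑ X ∈ P.g.comps R V, (P.N.cl X).card := by
  have : P.N.cl V = (P.g.comps R V).biUnion fun X => P.N.cl X := by
    conv_lhs => rw [← comps_biUnion (R := R) V]
    simp only [Nest.cl, Finset.biUnion_image, id]
  rw [this]
  exact Finset.card_biUnion_le

theorem two_le_card_comps {g : Grid G} {V : Finset g.I} (hne : V.Nonempty) (hc : ¬ g.Conn R V) : 2 ≤ (g.comps R V).card := by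
  by_contra h
  push Not at h
  obtain ⟨a, ha⟩ := hne
  obtain ⟨X, hX, _⟩ := comps_cover (R := R) ha
  have h1 : (g.comps R V).card = 1 := by
    have : 0 < (g.comps R V).card := Finset.card_pos.2 ⟨X, hX⟩
    omega
  obtain ⟨X', hX'⟩ := Finset.card_eq_one.1 h1
  have hV : V = X' := by
    conv_lhs => rw [← comps_biUnion (R := R) V, hX']
    simp
  apply hc
  rw [hV]
  exact comps_conn (V := V) (by rw [hX']; exact Finset.mem_singleton_self _)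

theorem theta_const (lam A cst β : ℝ≥0) (h1 : 1 ≤ lam * A) (hbig : lam * cst ^ 2 ≤ β ^ 2 * A) (m n : ℕ) (h : 2 * m ≤ n) :
    (lam * A) ^ m * cst ^ n ≤ (β * A) ^ n := by
  rw [← pow_le_pow_iff_left₀ zero_le zero_le two_ne_zero]
  calc ((lam * A) ^ m * cst ^ n) ^ 2 = (lam * A) ^ (2 * m) * (cst ^ 2) ^ n := by ring
    _ ≤ (lam * A) ^ n * (cst ^ 2) ^ n := mul_le_mul' (pow_le_pow_right₀ h1 h) le_rfl
    _ = ((lam * cst ^ 2) * A) ^ n := by ring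
    _ ≤ ((β ^ 2 * A) * A) ^ n := pow_le_pow_left₀ zero_le (mul_le_mul' hbig le_rfl) n
    _ = ((β * A) ^ n) ^ 2 := by ring

/-- the constants of step 1 -/
structure C1 (lam A cst β c2 : ℝ≥0) (n0 : ℕ) : Prop where
  h1 : 1 ≤ lam * A
  hbig : lam * cst ^ 2 ≤ β ^ 2 * A
  hc2 : ∀ n ≤ n0, (lam * cst) ^ n ≤ c2 * β ^ n
  hc2' : 1 ≤ c2

theorem theta_le (S : SizeSys P R E) (K : Finset P.g.I → 𝔸) {lam A cst β c2 : ℝ≥0} {n0 : ℕ} (hC : C1 lam A cst β c2 n0)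
    (ε : ℝ≥0∞) (hcst : S.cst ≤ cst) (X : Finset P.g.I) (hhalf : n0 < X.card → 2 * (P.N.cl X).card ≤ X.card)
    (hk : (A : ℝ≥0∞) ^ X.card * S.szf X (K X) ≤ ε) :
    ((lam * A : ℝ≥0) : ℝ≥0∞) ^ (P.N.cl X).card * (S.cst ^ X.card * S.szf X (K X)) ≤ c2 * ε * (β : ℝ≥0∞) ^ X.card := by
  set k := S.szf X (K X) with hkdef
  set n := X.card with hn
  set m := (P.N.cl X).card with hm
  have hmn : m ≤ n := Finset.card_image_le
  have hcst' : S.cst ^ n ≤ (cst : ℝ≥0∞) ^ n := pow_le_pow_left₀ zero_le hcst n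
  by_cases hsm : n ≤ n0
  · have e1 : (lam * A) ^ m * cst ^ n ≤ c2 * β ^ n * A ^ n := by
      calc (lam * A) ^ m * cst ^ n ≤ (lam * A) ^ n * cst ^ n := mul_le_mul' (pow_le_pow_right₀ hC.h1 hmn) le_rfl
        _ = (lam * cst) ^ n * A ^ n := by ring
        _ ≤ c2 * β ^ n * A ^ n := mul_le_mul' (hC.hc2 n hsm) le_rfl
    have e1' : ((lam * A : ℝ≥0) : ℝ≥0∞) ^ m * (cst : ℝ≥0∞) ^ n ≤ c2 * (β : ℝ≥0∞) ^ n * (A : ℝ≥0∞) ^ n := by
      exact_mod_cast e1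
    calc ((lam * A : ℝ≥0) : ℝ≥0∞) ^ m * (S.cst ^ n * k) ≤ ((lam * A : ℝ≥0) : ℝ≥0∞) ^ m * ((cst : ℝ≥0∞) ^ n * k) :=
          mul_le_mul' le_rfl (mul_le_mul' hcst' le_rfl)
      _ = (((lam * A : ℝ≥0) : ℝ≥0∞) ^ m * (cst : ℝ≥0∞) ^ n) * k := by ring
      _ ≤ (c2 * (β : ℝ≥0∞) ^ n * (A : ℝ≥0∞) ^ n) * k := mul_le_mul' e1' le_rfl
      _ = c2 * (β : ℝ≥0∞) ^ n * ((A : ℝ≥0∞) ^ n * k) := by ring
      _ ≤ c2 * (β : ℝ≥0∞) ^ n * ε := mul_le_mul' le_rfl hk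
      _ = c2 * ε * (β : ℝ≥0∞) ^ n := by ring
  · push Not at hsm
    have e1 : (lam * A) ^ m * cst ^ n ≤ c2 * β ^ n * A ^ n := by
      calc (lam * A) ^ m * cst ^ n ≤ (β * A) ^ n := theta_const lam A cst β hC.h1 hC.hbig m n (hhalf hsm)
        _ = 1 * β ^ n * A ^ n := by ring
        _ ≤ c2 * β ^ n * A ^ n := mul_le_mul' (mul_le_mul' hC.hc2' le_rfl) le_rfl
    have e1' : ((lam * A : ℝ≥0) : ℝ≥0∞) ^ m * (cst : ℝ≥0∞) ^ n ≤ c2 * (β : ℝ≥0∞) ^ n * (A : ℝ≥0∞) ^ n := by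
      exact_mod_cast e1
    calc ((lam * A : ℝ≥0) : ℝ≥0∞) ^ m * (S.cst ^ n * k) ≤ ((lam * A : ℝ≥0) : ℝ≥0∞) ^ m * ((cst : ℝ≥0∞) ^ n * k) :=
          mul_le_mul' le_rfl (mul_le_mul' hcst' le_rfl)
      _ = (((lam * A : ℝ≥0) : ℝ≥0∞) ^ m * (cst : ℝ≥0∞) ^ n) * k := by ring
      _ ≤ (c2 * (β : ℝ≥0∞) ^ n * (A : ℝ≥0∞) ^ n) * k := mul_le_mul' e1' le_rfl
      _ = c2 * (β : ℝ≥0∞) ^ n * ((A : ℝ≥0∞) ^ n * k) := by ring
      _ ≤ c2 * (β : ℝ≥0∞) ^ n * ε := mul_le_mul' le_rfl hk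
      _ = c2 * ε * (β : ℝ≥0∞) ^ n := by ring

/-- one family -/
theorem eV_le (S : SizeSys P R E) (K : Finset P.g.I → 𝔸) {lam A cst β c2 : ℝ≥0} {n0 N : ℕ} (hC : C1 lam A cst β c2 n0)
    (hG : GeoHyp P r R n0 N) (ε : ℝ≥0∞) (hcst : S.cst ≤ cst) (hK : S.nf A K ≤ ε) (V : Finset P.g.I) :
    ((lam * A : ℝ≥0) : ℝ≥0∞) ^ (P.N.cl V).card * S.szc (P.N.cl V) (E (∏ X ∈ P.g.comps R V, K X))
      ≤ (c2 * ε) ^ (P.g.comps R V).card * (β : ℝ≥0∞) ^ V.card := by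
  have h1 : (1 : ℝ≥0∞) ≤ ((lam * A : ℝ≥0) : ℝ≥0∞) := by exact_mod_cast hC.h1
  calc ((lam * A : ℝ≥0) : ℝ≥0∞) ^ (P.N.cl V).card * S.szc (P.N.cl V) (E (∏ X ∈ P.g.comps R V, K X))
      ≤ ((lam * A : ℝ≥0) : ℝ≥0∞) ^ (∑ X ∈ P.g.comps R V, (P.N.cl X).card)
          * ∏ X ∈ P.g.comps R V, (S.cst ^ X.card * S.szf X (K X)) :=
        mul_le_mul' (pow_le_pow_right₀ h1 (cl_card_le V)) (S.integ V K _ (Finset.Subset.refl _))
    _ = ∏ X ∈ P.g.comps R V, (((lam * A : ℝ≥0) : ℝ≥0∞) ^ (P.N.cl X).card * (S.cst ^ X.card * S.szf X (K X))) := by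
        symm
        rw [Finset.prod_mul_distrib, Finset.prod_pow_eq_pow_sum]
    _ ≤ ∏ X ∈ P.g.comps R V, (c2 * ε * (β : ℝ≥0∞) ^ X.card) := by
        refine Finset.prod_le_prod' fun X hX => ?_
        refine theta_le S K hC ε hcst X (hG.half X (comps_conn hX)) ?_
        exact le_trans (le_iSup (fun X => (A : ℝ≥0∞) ^ X.card * S.szf X (K X)) X) hK
    _ = (c2 * ε) ^ (P.g.comps R V).card * (β : ℝ≥0∞) ^ V.card := by
        rw [Finset.prod_mul_distrib, Finset.prod_const, Finset.prod_pow_eq_pow_sum, ← card_eq_sum_comps]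

/-- the linear part of `K̃` -/
noncomputable def L1 (P : Pair G D0 ℓ) (R : ℕ) (E : 𝔸 → 𝔸) (K : Finset P.g.I → 𝔸) (Y : Finset P.g'.I) : 𝔸 :=
  ∑ X ∈ Finset.univ.filter (fun X : Finset P.g.I => P.g.Conn R X ∧ P.N.cl X = Y), E (K X)

/-- the non-linear part of `K̃` -/
noncomputable def Q1 (P : Pair G D0 ℓ) (R : ℕ) (E : 𝔸 → 𝔸) (K : Finset P.g.I → 𝔸) (Y : Finset P.g'.I) : 𝔸 :=
  ∑ V ∈ Finset.univ.filter (fun V : Finset P.g.I => ¬ P.g.Conn R V ∧ P.N.cl V = Y), E (∏ X ∈ P.g.comps R V, K X)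

theorem Ktil_split (K : Finset P.g.I → 𝔸) (Y : Finset P.g'.I) (hY : P.g'.Conn r Y) :
    Ktil P r R E K Y = L1 P R E K Y + Q1 P R E K Y := by
  unfold Ktil L1 Q1
  rw [if_pos hY, ← Finset.sum_filter_add_sum_filter_not _ (fun V : Finset P.g.I => P.g.Conn R V), Finset.filter_filter,
    Finset.filter_filter]
  congr 1
  · have : Finset.univ.filter (fun V : Finset P.g.I => P.N.cl V = Y ∧ P.g.Conn R V)
        = Finset.univ.filter (fun X : Finset P.g.I => P.g.Conn R X ∧ P.N.cl X = Y) := by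
      ext V; simp [and_comm]
    rw [this]
    refine Finset.sum_congr rfl fun X hX => ?_
    simp only [Finset.mem_filter, Finset.mem_univ, true_and] at hX
    rw [comps_self hX.1, Finset.prod_singleton]
  · have : Finset.univ.filter (fun V : Finset P.g.I => P.N.cl V = Y ∧ ¬ P.g.Conn R V)
        = Finset.univ.filter (fun X : Finset P.g.I => ¬ P.g.Conn R X ∧ P.N.cl X = Y) := by
      ext V; simp [and_comm]
    rw [this]

theorem L1_le (S : SizeSys P R E) (K : Finset P.g.I → 𝔸) {lam A cst β c2 : ℝ≥0} {n0 N : ℕ} (hC : C1 lam A cst β c2 n0)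
    (hG : GeoHyp P r R n0 N) (hβ : β ≤ 1) (ε : ℝ≥0∞) (hcst : S.cst ≤ cst) (hK : S.nf A K ≤ ε) (Y : Finset P.g'.I) :
    ((lam * A : ℝ≥0) : ℝ≥0∞) ^ Y.card * S.szc Y (L1 P R E K Y) ≤ c2 * ε * ((β : ℝ≥0∞) * 2 ^ N) ^ Y.card := by
  have hβ' : (β : ℝ≥0∞) ≤ 1 := by exact_mod_cast hβ
  unfold L1
  calc ((lam * A : ℝ≥0) : ℝ≥0∞) ^ Y.card
        * S.szc Y (∑ X ∈ Finset.univ.filter (fun X : Finset P.g.I => P.g.Conn R X ∧ P.N.cl X = Y), E (K X))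
      ≤ ((lam * A : ℝ≥0) : ℝ≥0∞) ^ Y.card
        * ∑ X ∈ Finset.univ.filter (fun X : Finset P.g.I => P.g.Conn R X ∧ P.N.cl X = Y), S.szc Y (E (K X)) :=
        mul_le_mul' le_rfl (szc_sum S Y _ _)
    _ = ∑ X ∈ Finset.univ.filter (fun X : Finset P.g.I => P.g.Conn R X ∧ P.N.cl X = Y),
          ((lam * A : ℝ≥0) : ℝ≥0∞) ^ Y.card * S.szc Y (E (K X)) := Finset.mul_sum _ _ _
    _ ≤ ∑ X ∈ Finset.univ.filter (fun X : Finset P.g.I => P.g.Conn R X ∧ P.N.cl X = Y), c2 * ε * (β : ℝ≥0∞) ^ X.card := by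
        refine Finset.sum_le_sum fun X hX => ?_
        simp only [Finset.mem_filter, Finset.mem_univ, true_and] at hX
        have := eV_le S K hC hG ε hcst hK X
        rw [comps_self hX.1, Finset.prod_singleton, Finset.card_singleton, pow_one, hX.2] at this
        exact this
    _ ≤ ∑ X ∈ Finset.univ.filter (fun X : Finset P.g.I => P.N.cl X = Y), c2 * ε * (β : ℝ≥0∞) ^ X.card := by
        apply Finset.sum_le_sum_of_subset
        intro X hX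
        simp only [Finset.mem_filter, Finset.mem_univ, true_and] at hX ⊢
        exact hX.2
    _ = c2 * ε * ∑ X ∈ Finset.univ.filter (fun X : Finset P.g.I => P.N.cl X = Y), (β : ℝ≥0∞) ^ X.card :=
        (Finset.mul_sum _ _ _).symm
    _ ≤ c2 * ε * ((β : ℝ≥0∞) * 2 ^ N) ^ Y.card := mul_le_mul' le_rfl (sum_cl_pow _ hβ' N hG.fibre Y)

theorem Q1_le (S : SizeSys P R E) (K : Finset P.g.I → 𝔸) {lam A cst β c2 : ℝ≥0} {n0 N : ℕ} (hC : C1 lam A cst β c2 n0)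
    (hG : GeoHyp P r R n0 N) (hβ : β ≤ 1) (ε : ℝ≥0∞) (hε : c2 * ε ≤ 1) (hcst : S.cst ≤ cst) (hK : S.nf A K ≤ ε)
    (Y : Finset P.g'.I) (hY : Y.Nonempty) :
    ((lam * A : ℝ≥0) : ℝ≥0∞) ^ Y.card * S.szc Y (Q1 P R E K Y) ≤ (c2 * ε) ^ 2 * ((β : ℝ≥0∞) * 2 ^ N) ^ Y.card := by
  have hβ' : (β : ℝ≥0∞) ≤ 1 := by exact_mod_cast hβ
  unfold Q1
  calc ((lam * A : ℝ≥0) : ℝ≥0∞) ^ Y.card
        * S.szc Y (∑ V ∈ Finset.univ.filter (fun V : Finset P.g.I => ¬ P.g.Conn R V ∧ P.N.cl V = Y), E (∏ X ∈ P.g.comps R V, K X))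
      ≤ ((lam * A : ℝ≥0) : ℝ≥0∞) ^ Y.card
        * ∑ V ∈ Finset.univ.filter (fun V : Finset P.g.I => ¬ P.g.Conn R V ∧ P.N.cl V = Y),
            S.szc Y (E (∏ X ∈ P.g.comps R V, K X)) := mul_le_mul' le_rfl (szc_sum S Y _ _)
    _ = ∑ V ∈ Finset.univ.filter (fun V : Finset P.g.I => ¬ P.g.Conn R V ∧ P.N.cl V = Y),
          ((lam * A : ℝ≥0) : ℝ≥0∞) ^ Y.card * S.szc Y (E (∏ X ∈ P.g.comps R V, K X)) := Finset.mul_sum _ _ _
    _ ≤ ∑ V ∈ Finset.univ.filter (fun V : Finset P.g.I => ¬ P.g.Conn R V ∧ P.N.cl V = Y),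
          (c2 * ε) ^ 2 * (β : ℝ≥0∞) ^ V.card := by
        refine Finset.sum_le_sum fun V hV => ?_
        simp only [Finset.mem_filter, Finset.mem_univ, true_and] at hV
        have := eV_le S K hC hG ε hcst hK V
        rw [hV.2] at this
        refine this.trans (mul_le_mul' ?_ le_rfl)
        apply pow_le_pow_right_of_le_one' hε
        apply two_le_card_comps _ hV.1
        rw [← hV.2] at hY
        exact (Finset.image_nonempty.1 hY)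
    _ ≤ ∑ V ∈ Finset.univ.filter (fun V : Finset P.g.I => P.N.cl V = Y), (c2 * ε) ^ 2 * (β : ℝ≥0∞) ^ V.card := by
        apply Finset.sum_le_sum_of_subset
        intro X hX
        simp only [Finset.mem_filter, Finset.mem_univ, true_and] at hX ⊢
        exact hX.2
    _ = (c2 * ε) ^ 2 * ∑ V ∈ Finset.univ.filter (fun V : Finset P.g.I => P.N.cl V = Y), (β : ℝ≥0∞) ^ V.card :=
        (Finset.mul_sum _ _ _).symm
    _ ≤ (c2 * ε) ^ 2 * ((β : ℝ≥0∞) * 2 ^ N) ^ Y.card := mul_le_mul' le_rfl (sum_cl_pow _ hβ' N hG.fibre Y)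

end Claimed.Agent.R285.Est
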