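import Claimed.Agent.R285.Est.Step1
import Claimed.Agent.R285.Alg.Step2

/-!
# ROW 285, package PK-EST, file 4: the estimate of step 2, part a: majorants and the peeling lemma     (helper165)
-/

set_option autoImplicit false

namespace Claimed.Agent.R285.Est

open scoped BigOperators ENNReal NNReal
open Claimed.Agent.R285.RG Claimed.Agent.R285.Alg
open Classical

variable {G : Geom} {g : Grid G} {r : ℕ}

/-- majorant of one temporary object -/
noncomputable def sh (kh : Finset g.I → ℝ≥0∞) (fh : Finset g.I → g.I → ℝ≥0∞) (T Y : Finset g.I) : ℝ≥0∞ :=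
  if Y ∩ T = ∅ then kh Y else ∑ b ∈ Y, if Y ∩ T = {b} then fh Y b else 0

/-- majorant of the weight of a configuration -/
noncomputable def omh (r : ℕ) (kh : Finset g.I → ℝ≥0∞) (fh : Finset g.I → g.I → ℝ≥0∞) (W T : Finset g.I) : ℝ≥0∞ :=
  ∏ Y ∈ g.comps r W, sh kh fh T Y

theorem sh_congr (kh : Finset g.I → ℝ≥0∞) (fh : Finset g.I → g.I → ℝ≥0∞) {T T' Y : Finset g.I} (h : Y ∩ T = Y ∩ T') :
    sh kh fh T Y = sh kh fh T' Y := by
  unfold sh
  rw [h]

theorem prod_comps_union' {M : Type} [CommMonoid M] (f : Finset g.I → M) {V1 V2 : Finset g.I} (h : g.Sep r V1 V2) :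
    ∏ X ∈ g.comps r (V1 ∪ V2), f X = (∏ X ∈ g.comps r V1, f X) * ∏ X ∈ g.comps r V2, f X := by
  rw [comps_union h, Finset.prod_union (comps_union_disjoint h)]

theorem omh_union (kh : Finset g.I → ℝ≥0∞) (fh : Finset g.I → g.I → ℝ≥0∞) {W1 W2 T1 T2 : Finset g.I} (h : g.Sep r W1 W2)
    (h1 : T1 ⊆ W1) (h2 : T2 ⊆ W2) : omh r kh fh (W1 ∪ W2) (T1 ∪ T2) = omh r kh fh W1 T1 * omh r kh fh W2 T2 := by
  have hd := sep_disjoint h
  unfold omh
  rw [prod_comps_union' _ h]
  congr 1
  · exact Finset.prod_congr rfl fun Y hY => sh_congr kh fh (inter_union_left_of hd (comps_subset hY) h2)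
  · exact Finset.prod_congr rfl fun Y hY => sh_congr kh fh (inter_union_right_of hd (comps_subset hY) h1)

theorem sh_singleton (kh : Finset g.I → ℝ≥0∞) (fh : Finset g.I → g.I → ℝ≥0∞) {Y T : Finset g.I} {b : g.I} (hb : b ∈ Y)
    (h : Y ∩ T = {b}) : sh kh fh T Y = fh Y b := by
  unfold sh
  rw [h, if_neg (Finset.singleton_ne_empty b)]
  have : ∀ b' ∈ Y, (if ({b} : Finset g.I) = {b'} then fh Y b' else 0) = if b = b' then fh Y b' else 0 := by
    intro b' _
    simp only [Finset.singleton_inj]
  rw [Finset.sum_congr rfl this, Finset.sum_ite_eq, if_pos hb]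

theorem omh_conn_singleton (kh : Finset g.I → ℝ≥0∞) (fh : Finset g.I → g.I → ℝ≥0∞) {Y : Finset g.I} (hY : g.Conn r Y) {b : g.I}
    (hb : b ∈ Y) : omh r kh fh Y {b} = fh Y b := by
  unfold omh
  rw [comps_self hY, Finset.prod_singleton]
  exact sh_singleton kh fh hb (Finset.inter_singleton_of_mem hb)

theorem newSupp_conn_singleton {Y : Finset g.I} (hY : g.Conn r Y) {b : g.I} (hb : b ∈ Y) : newSupp r g Y {b} = {b} := by
  unfold newSupp
  rw [comps_self hY]
  have : ({Y} : Finset (Finset g.I)).filter (fun Y' => Y' ∩ {b} = ∅) = ∅ := by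
    ext Y'
    simp only [Finset.mem_filter, Finset.mem_singleton, Finset.notMem_empty, iff_false, not_and]
    rintro rfl
    rw [Finset.inter_singleton_of_mem hb]
    exact Finset.singleton_ne_empty b
  rw [this]
  simp

theorem newSupp_empty (W : Finset g.I) : newSupp r g W ∅ = W := by
  unfold newSupp
  simp only [Finset.inter_empty, Finset.filter_true, Finset.empty_union]
  exact comps_biUnion W

/-- the component of a point -/
noncomputable def cp (r : ℕ) (W : Finset g.I) (b : g.I) : Finset g.I :=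
  if h : b ∈ W then Classical.choose (comps_cover (R := r) h) else ∅

theorem cp_spec {W : Finset g.I} {b : g.I} (h : b ∈ W) : cp r W b ∈ g.comps r W ∧ b ∈ cp r W b := by
  unfold cp
  rw [dif_pos h]
  exact Classical.choose_spec (comps_cover (R := r) h)

/-- what a configuration of non-zero weight looks like at a mark -/
theorem peel_facts (kh : Finset g.I → ℝ≥0∞) (fh : Finset g.I → g.I → ℝ≥0∞) {W T' : Finset g.I} {b : g.I} (hb : b ∉ T')
    (hT : insert b T' ⊆ W) (hne : omh r kh fh W (insert b T') ≠ 0) :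
    T' ⊆ W \ cp r W b ∧ omh r kh fh W (insert b T') = fh (cp r W b) b * omh r kh fh (W \ cp r W b) T' ∧
      newSupp r g (W \ cp r W b) T' = newSupp r g W (insert b T') \ {b} := by
  have hbW : b ∈ W := hT (Finset.mem_insert_self _ _)
  obtain ⟨hY, hbY⟩ := cp_spec (r := r) hbW
  set Y := cp r W b with hYdef
  have hsh : sh kh fh (insert b T') Y ≠ 0 := by
    intro h0
    exact hne (Finset.prod_eq_zero hY h0)
  have hbI : b ∈ Y ∩ insert b T' := Finset.mem_inter.2 ⟨hbY, Finset.mem_insert_self _ _⟩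
  have hI : Y ∩ insert b T' = {b} := by
    unfold sh at hsh
    rw [if_neg (Finset.nonempty_iff_ne_empty.1 ⟨b, hbI⟩)] at hsh
    obtain ⟨b', _, hb'⟩ := Finset.exists_ne_zero_of_sum_ne_zero hsh
    have h1 : Y ∩ insert b T' = {b'} := by
      by_contra hcon
      rw [if_neg hcon] at hb'
      exact hb' rfl
    rw [h1] at hbI
    rw [h1, Finset.mem_singleton.1 hbI]
  have hT' : T' ⊆ W \ Y := by
    intro t ht
    refine Finset.mem_sdiff.2 ⟨hT (Finset.mem_insert_of_mem ht), fun htY => ?_⟩
    have : t ∈ Y ∩ insert b T' := Finset.mem_inter.2 ⟨htY, Finset.mem_insert_of_mem ht⟩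
    rw [hI, Finset.mem_singleton] at this
    exact hb (this ▸ ht)
  have hsep := comps_sep_sdiff hY
  have hW : W = Y ∪ (W \ Y) := (Finset.union_sdiff_of_subset (comps_subset hY)).symm
  have hbs : ({b} : Finset g.I) ⊆ Y := Finset.singleton_subset_iff.2 hbY
  refine ⟨hT', ?_, ?_⟩
  · conv_lhs => rw [hW, Finset.insert_eq, omh_union kh fh hsep hbs hT', omh_conn_singleton kh fh (comps_conn hY) hbY]
  · conv_rhs => rw [hW, Finset.insert_eq, newSupp_union hsep hbs hT', newSupp_conn_singleton (comps_conn hY) hbY]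
    have hnb : b ∉ newSupp r g (W \ Y) T' := fun h => (Finset.mem_sdiff.1 (newSupp_subset hT' h)).2 hbY
    ext a
    simp only [Finset.mem_sdiff, Finset.mem_union, Finset.mem_singleton]
    constructor
    · intro ha
      exact ⟨Or.inr ha, fun h => hnb (h ▸ ha)⟩
    · rintro ⟨h | h, hn⟩
      · exact absurd h hn
      · exact h

/-- **the peeling lemma**: the sum over the configurations with given marks and given new support -/
theorem peel (kh : Finset g.I → ℝ≥0∞) (fh : Finset g.I → g.I → ℝ≥0∞) (x : ℝ≥0∞) (hf : ∀ b, ∑ Y : Finset g.I, fh Y b ≤ x)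
    (T : Finset g.I) : ∀ Z : Finset g.I,
    ∑ W ∈ Finset.univ.filter (fun W : Finset g.I => T ⊆ W ∧ newSupp r g W T = Z), omh r kh fh W T
      ≤ x ^ T.card * ∏ Y ∈ g.comps r (Z \ T), kh Y := by
  induction T using Finset.induction_on with
  | empty =>
    intro Z
    have : Finset.univ.filter (fun W : Finset g.I => ∅ ⊆ W ∧ newSupp r g W ∅ = Z) = {Z} := by
      ext W
      simp [newSupp_empty]
    rw [this, Finset.sum_singleton]
    simp [omh, sh]
  | insert b T' hb ih =>
    intro Z
    set 𝒲 := Finset.univ.filter (fun W : Finset g.I => insert b T' ⊆ W ∧ newSupp r g W (insert b T') = Z) with h𝒲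
    set 𝒲' := Finset.univ.filter (fun W : Finset g.I => T' ⊆ W ∧ newSupp r g W T' = Z \ {b}) with h𝒲'
    set i : Finset g.I → Finset g.I × Finset g.I := fun W => (cp r W b, W \ cp r W b) with hi
    set Gf : Finset g.I × Finset g.I → ℝ≥0∞ := fun q => fh q.1 b * omh r kh fh q.2 T' with hGf
    have hinj : Set.InjOn i (𝒲.filter fun W => omh r kh fh W (insert b T') ≠ 0 : Finset (Finset g.I)) := by
      intro W hW W' hW' hWW'
      simp only [Finset.coe_filter, h𝒲, Finset.mem_filter, Finset.mem_univ, true_and, Set.mem_ofPred_eq] at hW hW'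
      have e1 : cp r W b ⊆ W := comps_subset (cp_spec (hW.1.1 (Finset.mem_insert_self _ _))).1
      have e2 : cp r W' b ⊆ W' := comps_subset (cp_spec (hW'.1.1 (Finset.mem_insert_self _ _))).1
      have h1 := (Prod.ext_iff.1 hWW').1
      have h2 := (Prod.ext_iff.1 hWW').2
      simp only [hi] at h1 h2
      rw [← Finset.union_sdiff_of_subset e1, ← Finset.union_sdiff_of_subset e2, h2, h1]
    calc ∑ W ∈ 𝒲, omh r kh fh W (insert b T')
        = ∑ W ∈ 𝒲.filter (fun W => omh r kh fh W (insert b T') ≠ 0), omh r kh fh W (insert b T') :=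
          (Finset.sum_filter_ne_zero 𝒲).symm
      _ = ∑ W ∈ 𝒲.filter (fun W => omh r kh fh W (insert b T') ≠ 0), Gf (i W) := by
          refine Finset.sum_congr rfl fun W hW => ?_
          simp only [h𝒲, Finset.mem_filter, Finset.mem_univ, true_and] at hW
          exact (peel_facts kh fh hb hW.1.1 hW.2).2.1
      _ = ∑ q ∈ (𝒲.filter (fun W => omh r kh fh W (insert b T') ≠ 0)).image i, Gf q := (Finset.sum_image hinj).symm
      _ ≤ ∑ q ∈ (Finset.univ : Finset (Finset g.I)) ×ˢ 𝒲', Gf q := by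
          apply Finset.sum_le_sum_of_subset
          intro q hq
          obtain ⟨W, hW, rfl⟩ := Finset.mem_image.1 hq
          simp only [h𝒲, Finset.mem_filter, Finset.mem_univ, true_and] at hW
          obtain ⟨f1, -, f3⟩ := peel_facts kh fh hb hW.1.1 hW.2
          simp only [Finset.mem_product, Finset.mem_univ, true_and, h𝒲', Finset.mem_filter, hi]
          exact ⟨f1, by rw [f3, hW.1.2]⟩
      _ = (∑ Y : Finset g.I, fh Y b) * ∑ W' ∈ 𝒲', omh r kh fh W' T' := by
          rw [Finset.sum_product, Finset.sum_mul_sum]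
      _ ≤ x * (x ^ T'.card * ∏ Y ∈ g.comps r ((Z \ {b}) \ T'), kh Y) := mul_le_mul' (hf b) (ih (Z \ {b}))
      _ = x ^ (insert b T').card * ∏ Y ∈ g.comps r (Z \ insert b T'), kh Y := by
          rw [Finset.card_insert_of_notMem hb, pow_succ, sdiff_sdiff_left, Finset.insert_eq]
          simp only [Finset.sup_eq_union]
          ring

end Claimed.Agent.R285.Est
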