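import Claimed.Agent.R285.Est.Step2a

/-!
# ROW 285, package PK-EST, file 5: the estimate of step 2, part b (`K̃` in the norm `4A` ⟶ `H` in the norm `2A`)     (helper165)
-/

set_option autoImplicit false

namespace Claimed.Agent.R285.Est

open scoped BigOperators ENNReal NNReal
open Claimed.Agent.R285.RG Claimed.Agent.R285.Alg
open Classical

variable {G : Geom} {D0 ℓ : ℕ} {P : Pair G D0 ℓ} {r R : ℕ} {𝔸 : Type} [CommRing 𝔸] [Algebra ℂ 𝔸] {E : 𝔸 → 𝔸}

/-- the support on which a temporary object is measured -/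
noncomputable def sg {g : Grid G} (T Y : Finset g.I) : Finset g.I := if Y ∩ T = ∅ then Y else Y ∩ T

theorem sg_subset {g : Grid G} (T Y : Finset g.I) : sg T Y ⊆ Y := by
  unfold sg
  split_ifs
  · exact Finset.Subset.refl _
  · exact Finset.inter_subset_left

theorem biUnion_sg {g : Grid G} {W T : Finset g.I} (hT : T ⊆ W) : (g.comps r W).biUnion (sg T) = newSupp r g W T := by
  ext a
  unfold newSupp
  simp only [Finset.mem_biUnion, Finset.mem_union, Finset.mem_filter, id]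
  constructor
  · rintro ⟨Y, hY, ha⟩
    unfold sg at ha
    by_cases h : Y ∩ T = ∅
    · rw [if_pos h] at ha
      exact Or.inr ⟨Y, ⟨hY, h⟩, ha⟩
    · rw [if_neg h] at ha
      exact Or.inl (Finset.mem_inter.1 ha).2
  · rintro (ha | ⟨Y, ⟨hY, h⟩, ha⟩)
    · obtain ⟨Y, hY, haY⟩ := comps_cover (R := r) (hT ha)
      refine ⟨Y, hY, ?_⟩
      have hmem : a ∈ Y ∩ T := Finset.mem_inter.2 ⟨haY, ha⟩
      unfold sg
      rw [if_neg (Finset.nonempty_iff_ne_empty.1 ⟨a, hmem⟩)]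
      exact hmem
    · refine ⟨Y, hY, ?_⟩
      unfold sg
      rw [if_pos h]
      exact ha

/-- the majorants attached to `(K̃, F)` -/
noncomputable def khOf (S : SizeSys P R E) (B : ℝ≥0∞) (Kt : Finset P.g'.I → 𝔸) (d : Desig P.g' 𝔸) (Y : Finset P.g'.I) : ℝ≥0∞ :=
  B ^ Y.card * S.szc Y (Kt Y - ∑ b ∈ Y, d.F Y b)

noncomputable def fhOf (S : SizeSys P R E) (B : ℝ≥0∞) (d : Desig P.g' 𝔸) (Y : Finset P.g'.I) (b : P.g'.I) : ℝ≥0∞ :=
  B * S.szc {b} (d.F Y b)

theorem obj_size (S : SizeSys P R E) (B : ℝ≥0∞) (Kt : Finset P.g'.I → 𝔸) (d : Desig P.g' 𝔸) (T Y : Finset P.g'.I) :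
    B ^ (sg T Y).card * S.szc (sg T Y) (tempObj P.g' Kt d T Y) ≤ sh (khOf S B Kt d) (fhOf S B d) T Y := by
  unfold sg tempObj sh
  by_cases h : Y ∩ T = ∅
  · rw [if_pos h, if_pos h, if_pos h]
    exact le_rfl
  · rw [if_neg h, if_neg h, if_neg h]
    refine (mul_le_mul' le_rfl (szc_sum S _ _ _)).trans ?_
    rw [Finset.mul_sum]
    refine Finset.sum_le_sum fun b _ => ?_
    by_cases hb : Y ∩ T = {b}
    · rw [if_pos hb, if_pos hb, hb, Finset.card_singleton, pow_one]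
      exact le_rfl
    · rw [if_neg hb, if_neg hb, S.szc_zero, mul_zero]

theorem om_size (S : SizeSys P R E) (hsep : S.sep ≤ r) (B : ℝ≥0∞) (hB : 1 ≤ B) (Kt : Finset P.g'.I → 𝔸) (d : Desig P.g' 𝔸)
    (W T : Finset P.g'.I) (hT : T ⊆ W) :
    B ^ (newSupp r P.g' W T).card * S.szc (newSupp r P.g' W T) (om r Kt d W T)
      ≤ omh r (khOf S B Kt d) (fhOf S B d) W T := by
  rw [← biUnion_sg hT]
  unfold om omh
  refine (wszc_prod S B hB (P.g'.comps r W) (sg T) _ ?_).trans (Finset.prod_le_prod' fun Y _ => obj_size S B Kt d T Y)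
  intro Y hY Y' hY' hne
  exact sep_le (sep_mono (comps_sep hY hY' hne) (sg_subset T Y) (sg_subset T Y')) hsep

section majorant

variable {g : Grid G}

theorem sh_scale (kh kh' : Finset g.I → ℝ≥0∞) (fh fh' : Finset g.I → g.I → ℝ≥0∞) (μ : ℝ≥0∞) (hk : ∀ Y, kh Y ≤ μ * kh' Y)
    (hf : ∀ Y b, fh Y b ≤ μ * fh' Y b) (T Y : Finset g.I) : sh kh fh T Y ≤ μ * sh kh' fh' T Y := by
  unfold sh
  split_ifs
  · exact hk Y
  · rw [Finset.mul_sum]
    refine Finset.sum_le_sum fun b _ => ?_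
    split_ifs
    · exact hf Y b
    · simp

theorem omh_scale (kh kh' : Finset g.I → ℝ≥0∞) (fh fh' : Finset g.I → g.I → ℝ≥0∞) (μ : ℝ≥0∞) (hk : ∀ Y, kh Y ≤ μ * kh' Y)
    (hf : ∀ Y b, fh Y b ≤ μ * fh' Y b) (W T : Finset g.I) :
    omh r kh fh W T ≤ μ ^ (g.comps r W).card * omh r kh' fh' W T := by
  unfold omh
  rw [← Finset.prod_const, ← Finset.prod_mul_distrib]
  exact Finset.prod_le_prod' fun Y _ => sh_scale kh kh' fh fh' μ hk hf T Y

/-- the total majorant sum is `≤ (3/4)^{|Z|} ≤ 1` -/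
theorem total_le (kh : Finset g.I → ℝ≥0∞) (fh : Finset g.I → g.I → ℝ≥0∞) (hk : ∀ Y, kh Y ≤ (2⁻¹ : ℝ≥0∞) ^ Y.card)
    (hf : ∀ b, ∑ Y : Finset g.I, fh Y b ≤ 4⁻¹) (Z : Finset g.I) :
    ∑ W : Finset g.I, ∑ T ∈ W.powerset, (if newSupp r g W T = Z then omh r kh fh W T else 0) ≤ 1 := by
  have e1 : ∑ W : Finset g.I, ∑ T ∈ W.powerset, (if newSupp r g W T = Z then omh r kh fh W T else 0)
      = ∑ T : Finset g.I, ∑ W ∈ Finset.univ.filter (fun W : Finset g.I => T ⊆ W ∧ newSupp r g W T = Z), omh r kh fh W T := by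
    have : ∀ W : Finset g.I, ∑ T ∈ W.powerset, (if newSupp r g W T = Z then omh r kh fh W T else 0)
        = ∑ T : Finset g.I, if T ⊆ W ∧ newSupp r g W T = Z then omh r kh fh W T else 0 := by
      intro W
      apply Finset.sum_subset_zero_on_sdiff (Finset.subset_univ _)
      · intro T hT
        rw [if_neg]
        intro hc
        exact (Finset.mem_sdiff.1 hT).2 (Finset.mem_powerset.2 hc.1)
      · intro T hT
        have hTW := Finset.mem_powerset.1 hT
        simp [hTW]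
    simp_rw [this]
    rw [Finset.sum_comm]
    refine Finset.sum_congr rfl fun T _ => ?_
    rw [Finset.sum_filter]
  rw [e1]
  calc ∑ T : Finset g.I, ∑ W ∈ Finset.univ.filter (fun W : Finset g.I => T ⊆ W ∧ newSupp r g W T = Z), omh r kh fh W T
      = ∑ T ∈ Z.powerset, ∑ W ∈ Finset.univ.filter (fun W : Finset g.I => T ⊆ W ∧ newSupp r g W T = Z), omh r kh fh W T := by
        symm
        apply Finset.sum_subset (Finset.subset_univ _)
        intro T _ hT
        apply Finset.sum_eq_zero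
        intro W hW
        exfalso
        simp only [Finset.mem_filter, Finset.mem_univ, true_and] at hW
        apply hT
        rw [Finset.mem_powerset, ← hW.2]
        unfold newSupp
        exact Finset.subset_union_left
    _ ≤ ∑ T ∈ Z.powerset, (4⁻¹ : ℝ≥0∞) ^ T.card * (2⁻¹ : ℝ≥0∞) ^ (Z.card - T.card) := by
        refine Finset.sum_le_sum fun T hT => ?_
        refine (peel kh fh 4⁻¹ hf T Z).trans (mul_le_mul' le_rfl ?_)
        calc ∏ Y ∈ g.comps r (Z \ T), kh Y ≤ ∏ Y ∈ g.comps r (Z \ T), (2⁻¹ : ℝ≥0∞) ^ Y.card :=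
              Finset.prod_le_prod' fun Y _ => hk Y
          _ = (2⁻¹ : ℝ≥0∞) ^ (Z \ T).card := by rw [Finset.prod_pow_eq_pow_sum, ← card_eq_sum_comps]
          _ = (2⁻¹ : ℝ≥0∞) ^ (Z.card - T.card) := by rw [Finset.card_sdiff_of_subset (Finset.mem_powerset.1 hT)]
    _ = (4⁻¹ + 2⁻¹ : ℝ≥0∞) ^ Z.card := Finset.sum_pow_mul_eq_add_pow _ _ _
    _ ≤ 1 := by
        apply pow_le_one₀ zero_le
        have e : (4⁻¹ : ℝ≥0∞) + 2⁻¹ = ((4⁻¹ + 2⁻¹ : ℝ≥0) : ℝ≥0∞) := by
          push_cast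
          rfl
        rw [e]
        have : (4⁻¹ + 2⁻¹ : ℝ≥0) ≤ 1 := by
          rw [← NNReal.coe_le_coe]
          push_cast
          norm_num
        exact_mod_cast this

/-- configurations with at least two objects -/
theorem nonlin_majorant (kh : Finset g.I → ℝ≥0∞) (fh : Finset g.I → g.I → ℝ≥0∞) (μ : ℝ≥0∞) (hμ : μ ≤ 1)
    (hk : ∀ Y, kh Y ≤ μ * (2⁻¹ : ℝ≥0∞) ^ Y.card) (hf : ∀ b, ∑ Y : Finset g.I, fh Y b ≤ μ * 4⁻¹) (Z : Finset g.I) :
    ∑ W ∈ Finset.univ.filter (fun W : Finset g.I => ¬ (g.comps r W).card ≤ 1),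
      ∑ T ∈ W.powerset, (if newSupp r g W T = Z then omh r kh fh W T else 0) ≤ μ ^ 2 := by
  have hμt : μ ≠ ⊤ := ne_top_of_le_ne_top ENNReal.one_ne_top hμ
  by_cases h0 : μ = 0
  · subst h0
    have hk0 : ∀ Y, kh Y = 0 := fun Y => le_antisymm (by simpa using hk Y) zero_le
    have hf0 : ∀ Y b, fh Y b = 0 := by
      intro Y b
      have h1 : fh Y b ≤ ∑ Y : Finset g.I, fh Y b := Finset.single_le_sum (f := fun Y => fh Y b) (fun _ _ => zero_le) (Finset.mem_univ Y)
      exact le_antisymm (h1.trans (by simpa using hf b)) zero_le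
    apply le_of_eq_of_le _ zero_le
    apply Finset.sum_eq_zero
    intro W hW
    apply Finset.sum_eq_zero
    intro T _
    simp only [Finset.mem_filter, Finset.mem_univ, true_and] at hW
    have hpos : 0 < (g.comps r W).card := by omega
    obtain ⟨Y, hY⟩ := Finset.card_pos.1 hpos
    have : omh r kh fh W T = 0 := by
      unfold omh
      apply Finset.prod_eq_zero hY
      unfold sh
      split_ifs
      · exact hk0 Y
      · simp [hf0]
    simp [this]
  · set fh' : Finset g.I → g.I → ℝ≥0∞ := fun Y b => fh Y b / μ with hfh'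
    set kh' : Finset g.I → ℝ≥0∞ := fun Y => (2⁻¹ : ℝ≥0∞) ^ Y.card with hkh'
    have hf1 : ∀ Y b, fh Y b ≤ μ * fh' Y b := by
      intro Y b
      rw [hfh']
      simp only
      rw [ENNReal.mul_div_cancel h0 hμt]
    have hf2 : ∀ b, ∑ Y : Finset g.I, fh' Y b ≤ 4⁻¹ := by
      intro b
      simp only [hfh', div_eq_mul_inv]
      rw [← Finset.sum_mul]
      calc (∑ Y : Finset g.I, fh Y b) * μ⁻¹ ≤ (μ * 4⁻¹) * μ⁻¹ := mul_le_mul' (hf b) le_rfl
        _ = 4⁻¹ * (μ * μ⁻¹) := by ring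
        _ = 4⁻¹ := by rw [ENNReal.mul_inv_cancel h0 hμt, mul_one]
    calc ∑ W ∈ Finset.univ.filter (fun W : Finset g.I => ¬ (g.comps r W).card ≤ 1),
          ∑ T ∈ W.powerset, (if newSupp r g W T = Z then omh r kh fh W T else 0)
        ≤ ∑ W ∈ Finset.univ.filter (fun W : Finset g.I => ¬ (g.comps r W).card ≤ 1),
          ∑ T ∈ W.powerset, μ ^ 2 * (if newSupp r g W T = Z then omh r kh' fh' W T else 0) := by
          refine Finset.sum_le_sum fun W hW => Finset.sum_le_sum fun T _ => ?_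
          simp only [Finset.mem_filter, Finset.mem_univ, true_and] at hW
          split_ifs
          · refine (omh_scale kh kh' fh fh' μ hk hf1 W T).trans (mul_le_mul' ?_ le_rfl)
            exact pow_le_pow_right_of_le_one' hμ (by omega)
          · simp
      _ ≤ ∑ W : Finset g.I, ∑ T ∈ W.powerset, μ ^ 2 * (if newSupp r g W T = Z then omh r kh' fh' W T else 0) :=
          Finset.sum_le_sum_of_subset (Finset.filter_subset _ _)
      _ = μ ^ 2 * ∑ W : Finset g.I, ∑ T ∈ W.powerset, (if newSupp r g W T = Z then omh r kh' fh' W T else 0) := by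
          simp_rw [Finset.mul_sum]
      _ ≤ μ ^ 2 * 1 := mul_le_mul' le_rfl (total_le kh' fh' (fun _ => le_rfl) hf2 Z)
      _ = μ ^ 2 := mul_one _

end majorant

end Claimed.Agent.R285.Est
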