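import Claimed.Agent.R285.Est.Step2b

/-!
# ROW 285, package PK-EST, file 6: the estimate of step 2, part c: the linear part of `H` and the final bound     (helper165)
-/

set_option autoImplicit false

namespace Claimed.Agent.R285.Est

open scoped BigOperators ENNReal NNReal
open Claimed.Agent.R285.RG Claimed.Agent.R285.Alg
open Classical

variable {G : Geom} {D0 ℓ : ℕ} {P : Pair G D0 ℓ} {r R : ℕ} {𝔸 : Type} [CommRing 𝔸] [Algebra ℂ 𝔸] {E : 𝔸 → 𝔸}

section lin

variable {g : Grid G}

/-- the contribution of one `W` to `W2 Z` -/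
noncomputable def aW (r : ℕ) (Kt : Finset g.I → 𝔸) (d : Desig g 𝔸) (Z W : Finset g.I) : 𝔸 :=
  ∑ T ∈ W.powerset, if newSupp r g W T = Z then om r Kt d W T else 0

theorem newSupp_conn {W T : Finset g.I} (hW : g.Conn r W) (hT : T ⊆ W) : newSupp r g W T = if T = ∅ then W else T := by
  unfold newSupp
  rw [comps_self hW, Finset.filter_singleton, Finset.inter_eq_right.2 hT]
  split_ifs <;> simp_all

theorem aW_conn (Kt : Finset g.I → 𝔸) (d : Desig g 𝔸) (Z W : Finset g.I) (hW : g.Conn r W) :
    aW r Kt d Z W = (if W = Z then Kt W - ∑ b ∈ W, d.F W b else 0) + ∑ b ∈ W, if Z = {b} then d.F W b else 0 := by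
  unfold aW om
  simp_rw [comps_self hW, Finset.prod_singleton]
  have h1 : ∀ T ∈ W.powerset, (if newSupp r g W T = Z then tempObj g Kt d T W else 0)
      = (if T = ∅ then (if W = Z then Kt W - ∑ b ∈ W, d.F W b else 0) else 0)
        + ∑ b ∈ W, if T = {b} then (if Z = {b} then d.F W b else 0) else 0 := by
    intro T hT
    have hTW := Finset.mem_powerset.1 hT
    have hWT : W ∩ T = T := Finset.inter_eq_right.2 hTW
    rw [newSupp_conn hW hTW]
    unfold tempObj
    rw [hWT]
    by_cases h0 : T = ∅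
    · subst h0
      have : ∀ b ∈ W, (if (∅ : Finset g.I) = {b} then (if Z = {b} then d.F W b else 0) else 0) = 0 := by
        intro b _
        rw [if_neg (Finset.singleton_ne_empty b).symm]
      rw [Finset.sum_eq_zero this]
      simp
    · rw [if_neg h0, if_neg h0, if_neg h0, zero_add]
      by_cases hZ : T = Z
      · subst hZ
        rw [if_pos rfl]
        refine Finset.sum_congr rfl fun b _ => ?_
        by_cases hb : T = {b}
        · rw [if_pos hb, if_pos hb]
        · rw [if_neg hb, if_neg hb]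
      · rw [if_neg hZ]
        symm
        apply Finset.sum_eq_zero
        intro b _
        by_cases hb : T = {b}
        · rw [if_pos hb, if_neg]
          intro hc
          exact hZ (hb.trans hc.symm)
        · rw [if_neg hb]
  rw [Finset.sum_congr rfl h1, Finset.sum_add_distrib, Finset.sum_ite_eq', if_pos (Finset.empty_mem_powerset W), Finset.sum_comm]
  congr 1
  refine Finset.sum_congr rfl fun b hb => ?_
  rw [Finset.sum_ite_eq', if_pos (Finset.mem_powerset.2 (Finset.singleton_subset_iff.2 hb))]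

theorem aW_empty (Kt : Finset g.I → 𝔸) (d : Desig g 𝔸) (Z : Finset g.I) (hZ : Z.Nonempty) : aW r Kt d Z ∅ = 0 := by
  unfold aW
  simp only [Finset.powerset_empty, Finset.sum_singleton, newSupp_empty]
  rw [if_neg (Finset.nonempty_iff_ne_empty.1 hZ).symm]

theorem card_comps_le_one_iff {W : Finset g.I} : (g.comps r W).card ≤ 1 ↔ W = ∅ ∨ g.Conn r W := by
  constructor
  · intro h
    by_cases h0 : W = ∅
    · exact Or.inl h0
    · right
      by_contra hc
      have := two_le_card_comps (R := r) (Finset.nonempty_iff_ne_empty.2 h0) hc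
      omega
  · rintro (rfl | h)
    · simp [comps_empty]
    · simp [comps_self h]

/-- the linear part of `H` -/
noncomputable def Hlin (r : ℕ) (Kt : Finset g.I → 𝔸) (d : Desig g 𝔸) (Z : Finset g.I) : 𝔸 :=
  (if g.Conn r Z then Kt Z - ∑ b ∈ Z, d.F Z b else 0) + ∑ W : Finset g.I, ∑ b ∈ W, if Z = {b} then d.F W b else 0

theorem lin_part (Kt : Finset g.I → 𝔸) (d : Desig g 𝔸) (hd : d.Small r g) (Z : Finset g.I) (hZ : Z.Nonempty) :
    ∑ W ∈ Finset.univ.filter (fun W : Finset g.I => (g.comps r W).card ≤ 1), aW r Kt d Z W = Hlin r Kt d Z := by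
  have h1 : ∀ W ∈ Finset.univ.filter (fun W : Finset g.I => (g.comps r W).card ≤ 1), aW r Kt d Z W
      = (if W = Z then (if g.Conn r Z then Kt Z - ∑ b ∈ Z, d.F Z b else 0) else 0) + ∑ b ∈ W, if Z = {b} then d.F W b else 0 := by
    intro W hW
    simp only [Finset.mem_filter, Finset.mem_univ, true_and, card_comps_le_one_iff] at hW
    rcases hW with rfl | hW
    · rw [aW_empty Kt d Z hZ, if_neg (Finset.nonempty_iff_ne_empty.1 hZ).symm]
      simp
    · rw [aW_conn Kt d Z W hW]
      congr 1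
      by_cases hWZ : W = Z
      · subst hWZ
        rw [if_pos rfl, if_pos rfl, if_pos hW]
      · rw [if_neg hWZ, if_neg hWZ]
  rw [Finset.sum_congr rfl h1, Finset.sum_add_distrib]
  unfold Hlin
  congr 1
  · rw [Finset.sum_ite_eq']
    by_cases hc : g.Conn r Z
    · rw [if_pos]
      simp only [Finset.mem_filter, Finset.mem_univ, true_and, card_comps_le_one_iff]
      exact Or.inr hc
    · rw [if_neg hc]
      simp
  · apply Finset.sum_subset (Finset.subset_univ _)
    intro W _ hW
    simp only [Finset.mem_filter, Finset.mem_univ, true_and, card_comps_le_one_iff, not_or] at hW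
    apply Finset.sum_eq_zero
    intro b _
    rw [hd W b (fun hc => hW.2 hc.1)]
    simp

theorem W2_split (Kt : Finset g.I → 𝔸) (d : Desig g 𝔸) (hd : d.Small r g) (Z : Finset g.I) (hZ : Z.Nonempty) :
    W2 r Kt d Z - Hlin r Kt d Z = ∑ W ∈ Finset.univ.filter (fun W : Finset g.I => ¬ (g.comps r W).card ≤ 1), aW r Kt d Z W := by
  have : W2 r Kt d Z = ∑ W : Finset g.I, aW r Kt d Z W := rfl
  rw [this, ← lin_part Kt d hd Z hZ,
    ← Finset.sum_filter_add_sum_filter_not Finset.univ (fun W : Finset g.I => (g.comps r W).card ≤ 1), add_sub_cancel_left]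

end lin

/-- **the estimate of step 2** -/
theorem hrel_le (S : SizeSys P R E) (hsep : S.sep ≤ r) (B μ : ℝ≥0∞) (hB : 1 ≤ B) (hμ : μ ≤ 1) (Kt : Finset P.g'.I → 𝔸)
    (d : Desig P.g' 𝔸) (hd : d.Small r P.g')
    (hres : ∀ Y, B ^ Y.card * S.szc Y (Kt Y - ∑ b ∈ Y, d.F Y b) ≤ μ * (2⁻¹ : ℝ≥0∞) ^ Y.card)
    (hF : ∀ b, ∑ Y : Finset P.g'.I, B * S.szc {b} (d.F Y b) ≤ μ * 4⁻¹) (Z : Finset P.g'.I) (hZ : Z.Nonempty) :
    B ^ Z.card * S.szc Z (W2 r Kt d Z - Hlin r Kt d Z) ≤ μ ^ 2 := by
  rw [W2_split Kt d hd Z hZ]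
  refine le_trans ?_ (nonlin_majorant (r := r) (khOf S B Kt d) (fhOf S B d) μ hμ hres hF Z)
  refine (mul_le_mul' le_rfl (szc_sum S _ _ _)).trans ?_
  rw [Finset.mul_sum]
  refine Finset.sum_le_sum fun W _ => ?_
  unfold aW
  refine (mul_le_mul' le_rfl (szc_sum S _ _ _)).trans ?_
  rw [Finset.mul_sum]
  refine Finset.sum_le_sum fun T hT => ?_
  by_cases h : newSupp r P.g' W T = Z
  · rw [if_pos h, if_pos h]
    have := om_size S hsep B hB Kt d W T (Finset.mem_powerset.1 hT)
    rw [h] at this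
    exact this
  · rw [if_neg h, if_neg h, S.szc_zero, mul_zero]

end Claimed.Agent.R285.Est
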